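import Mathlib

/-!
P225, module C: the symmetric powers of the quaternion action on `ℂ²`, as homogeneous polynomial
matrix functions, in an orthonormal weight basis.
-/

noncomputable section

namespace Vale.Agent.P225.SU2

open Matrix Polynomial
open scoped Quaternion ComplexOrder Matrix.Norms.L2Operator

/-- First complex coordinate of `q = α + β j`. -/
def qα (q : ℍ[ℝ]) : ℂ := ⟨q.re, q.imI⟩

/-- Second complex coordinate of `q = α + β j`. -/
def qβ (q : ℍ[ℝ]) : ℂ := ⟨q.imJ, q.imK⟩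

/-- The `a`-th symmetric power: column `i` is the image of the normalised monomial `x₁^i x₂^(a-i)`. -/
def rep (a : ℕ) (q : ℍ[ℝ]) : Matrix (Fin (a + 1)) (Fin (a + 1)) ℂ :=
  fun k i => (Real.sqrt (a.choose i / a.choose k) : ℂ) *
    ((C (qα q) * X - C (star (qβ q))) ^ (i : ℕ) *
      (C (qβ q) * X + C (star (qα q))) ^ (a - i)).coeff k

/-- The imaginary units. -/
def imUnit : Fin 3 → ℍ[ℝ] :=
  ![⟨0, 1, 0, 0⟩, ⟨0, 0, 1, 0⟩, ⟨0, 0, 0, 1⟩]

/-- The infinitesimal generators `D^a(i/2), D^a(j/2), D^a(k/2)`. -/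
def gen (a : ℕ) (k : Fin 3) : Matrix (Fin (a + 1)) (Fin (a + 1)) ℂ :=
  (2⁻¹ : ℂ) • fderiv ℝ (rep a) 1 (imUnit k)

/-- The real structure: conjugate by the image of `j`. -/
def conjJ (a : ℕ) : Matrix (Fin (a + 1)) (Fin (a + 1)) ℂ := rep a (imUnit 1)

/-- The Casimir value `a (a + 2) / 4`. -/
def cas (a : ℕ) : ℝ := (a : ℝ) * (a + 2) / 4

variable (a : ℕ)

/-- A polynomial function with vanishing values has vanishing coefficients. -/
theorem coeff_eq_zero {n : ℕ} (c : Fin (n + 1) → ℂ) (h : ∀ x : ℂ, ∑ i, c i * x ^ (i : ℕ) = 0)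
    (i : Fin (n + 1)) : c i = 0 := by
  have e : (∑ j, Polynomial.C (c j) * Polynomial.X ^ (j : ℕ)) = 0 :=
    Polynomial.funext fun x => by simpa [Polynomial.eval_finsetSum] using h x
  have := congrArg (fun P => Polynomial.coeff P i) e
  simpa [Polynomial.finsetSum_coeff, Fin.val_inj, Polynomial.coeff_C_mul_X_pow] using this

theorem wt_ne {a : ℕ} (i : Fin (a + 1)) : (Real.sqrt (a.choose i) : ℂ) ≠ 0 := by
  exact_mod_cast (Real.sqrt_pos.2 (show (0 : ℝ) < a.choose i by
    exact_mod_cast Nat.choose_pos (Nat.lt_succ_iff.1 i.2))).ne'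

/-- The column of the representation, as a polynomial identity. -/
theorem rep_col (a : ℕ) (q : ℍ[ℝ]) (i : Fin (a + 1)) (x : ℂ) :
    ∑ k, rep a q k i * ((Real.sqrt (a.choose k) : ℂ) * x ^ (k : ℕ)) =
      (Real.sqrt (a.choose i) : ℂ) *
        ((qα q * x - star (qβ q)) ^ (i : ℕ) * (qβ q * x + star (qα q)) ^ (a - i)) := by
  set P : Polynomial ℂ := (Polynomial.C (qα q) * Polynomial.X - Polynomial.C (star (qβ q))) ^ (i : ℕ) *
    (Polynomial.C (qβ q) * Polynomial.X + Polynomial.C (star (qα q))) ^ (a - i) with hP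
  have hd : P.natDegree < a + 1 := by
    have hi := i.isLt
    have : P.natDegree ≤ (i : ℕ) * 1 + (a - i) * 1 := by
      refine le_trans Polynomial.natDegree_mul_le (add_le_add ?_ ?_) <;>
        refine le_trans Polynomial.natDegree_pow_le (Nat.mul_le_mul_left _ ?_) <;>
        compute_degree
    omega
  have e := Polynomial.eval_eq_sum_range' hd x
  rw [hP] at e
  simp only [Polynomial.eval_mul, Polynomial.eval_pow, Polynomial.eval_sub, Polynomial.eval_add,
    Polynomial.eval_C, Polynomial.eval_X] at e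
  rw [e, ← Fin.sum_univ_eq_sum_range (fun k => _ * x ^ k) (a + 1), Finset.mul_sum]
  refine Finset.sum_congr rfl fun k _ => ?_
  rw [rep, Real.sqrt_div' _ (Nat.cast_nonneg _), Complex.ofReal_div]
  have := wt_ne k
  field_simp

/-- The homogeneous form of `rep_col`. -/
theorem rep_col_hom (a : ℕ) (q : ℍ[ℝ]) (i : Fin (a + 1)) (u v : ℂ) :
    ∑ k, rep a q k i * ((Real.sqrt (a.choose k) : ℂ) * (u ^ (k : ℕ) * v ^ (a - k))) =
      (Real.sqrt (a.choose i) : ℂ) *
        ((qα q * u - star (qβ q) * v) ^ (i : ℕ) * (qβ q * u + star (qα q) * v) ^ (a - i)) := by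
  refine congrFun (Continuous.ext_on (dense_compl_singleton (0 : ℂ)) (f := fun v =>
    ∑ k, rep a q k i * ((Real.sqrt (a.choose k) : ℂ) * (u ^ (k : ℕ) * v ^ (a - k))))
    (g := fun v => (Real.sqrt (a.choose i) : ℂ) *
      ((qα q * u - star (qβ q) * v) ^ (i : ℕ) * (qβ q * u + star (qα q) * v) ^ (a - i)))
    (by fun_prop) (by fun_prop) fun v hv => ?_) v
  have hv : v ≠ 0 := hv
  have hp : ∀ n ≤ a, v ^ a = v ^ n * v ^ (a - n) := fun n hn => by
    rw [← pow_add, Nat.add_sub_cancel' hn]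
  have e1 : ∀ k : Fin (a + 1), rep a q k i * ((Real.sqrt (a.choose k) : ℂ) *
      (u ^ (k : ℕ) * v ^ (a - k))) =
        v ^ a * (rep a q k i * ((Real.sqrt (a.choose k) : ℂ) * (u / v) ^ (k : ℕ))) := fun k => by
    rw [hp k (Nat.lt_succ_iff.1 k.2), div_pow]
    field_simp
  simp only [e1, ← Finset.mul_sum, rep_col]
  rw [hp i (Nat.lt_succ_iff.1 i.2),
    show qα q * (u / v) - star (qβ q) = (qα q * u - star (qβ q) * v) / v by field_simp,
    show qβ q * (u / v) + star (qα q) = (qβ q * u + star (qα q) * v) / v by field_simp,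
    div_pow, div_pow]
  field_simp

/-- Two matrices with the same column polynomials agree. -/
theorem ext_col {M N : Matrix (Fin (a + 1)) (Fin (a + 1)) ℂ}
    (h : ∀ i x, ∑ k, M k i * ((Real.sqrt (a.choose k) : ℂ) * x ^ (k : ℕ)) =
      ∑ k, N k i * ((Real.sqrt (a.choose k) : ℂ) * x ^ (k : ℕ))) : M = N := by
  ext k i
  have := coeff_eq_zero (fun k : Fin (a + 1) => (M k i - N k i) * (Real.sqrt (a.choose k) : ℂ))
    (fun x => by
      simp only [sub_mul, Finset.sum_sub_distrib, sub_eq_zero]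
      simpa only [mul_assoc] using h i x) k
  exact sub_eq_zero.1 ((mul_eq_zero.1 this).resolve_right (wt_ne k))

/-- The generating function of a matrix. -/
def genFun (M : Matrix (Fin (a + 1)) (Fin (a + 1)) ℂ) (x y : ℂ) : ℂ :=
  ∑ i, (∑ k, M k i * ((Real.sqrt (a.choose k) : ℂ) * x ^ (k : ℕ))) *
    ((Real.sqrt (a.choose i) : ℂ) * y ^ (i : ℕ))

theorem genFun_rep (q : ℍ[ℝ]) (x y : ℂ) :
    genFun a (rep a q) x y =
      (y * (qα q * x - star (qβ q)) + (qβ q * x + star (qα q))) ^ a := by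
  rw [genFun, add_pow, ← Fin.sum_univ_eq_sum_range (fun i => _ ^ i * _ ^ (a - i) * (a.choose i : ℂ))]
  refine Finset.sum_congr rfl fun i _ => ?_
  have hs : (Real.sqrt (a.choose i) : ℂ) * (Real.sqrt (a.choose i) : ℂ) = (a.choose i : ℂ) := by
    rw [← Complex.ofReal_mul, Real.mul_self_sqrt (Nat.cast_nonneg _)]
    simp
  rw [rep_col, mul_pow, ← hs]
  ring

theorem ext_genFun {M N : Matrix (Fin (a + 1)) (Fin (a + 1)) ℂ}
    (h : ∀ x y, genFun a M x y = genFun a N x y) : M = N := by
  refine ext_col a fun i x => ?_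
  have := coeff_eq_zero (fun i : Fin (a + 1) =>
    (∑ k, M k i * ((Real.sqrt (a.choose k) : ℂ) * x ^ (k : ℕ)) -
      ∑ k, N k i * ((Real.sqrt (a.choose k) : ℂ) * x ^ (k : ℕ))) * (Real.sqrt (a.choose i) : ℂ))
    (fun y => by
      simp only [sub_mul, Finset.sum_sub_distrib, sub_eq_zero]
      simpa only [genFun, mul_assoc] using h x y) i
  exact sub_eq_zero.1 ((mul_eq_zero.1 this).resolve_right (wt_ne i))

theorem genFun_map_star (M : Matrix (Fin (a + 1)) (Fin (a + 1)) ℂ) (x y : ℂ) :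
    genFun a (M.map star) x y = star (genFun a M (star x) (star y)) := by
  simp [genFun, Complex.conj_ofReal]

theorem genFun_transpose (M : Matrix (Fin (a + 1)) (Fin (a + 1)) ℂ) (x y : ℂ) :
    genFun a Mᵀ x y = genFun a M y x := by
  simp only [genFun, Finset.sum_mul, Matrix.transpose_apply]
  rw [Finset.sum_comm]
  exact Finset.sum_congr rfl fun i _ => Finset.sum_congr rfl fun k _ => by ring

theorem rep_mul (p q : ℍ[ℝ]) : rep a (p * q) = rep a p * rep a q := by
  refine (ext_col a fun i x => ?_).symm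
  simp only [Matrix.mul_apply, Finset.sum_mul]
  rw [Finset.sum_comm]
  have e : ∀ j, ∑ k, rep a p k j * rep a q j i * ((Real.sqrt (a.choose k) : ℂ) * x ^ (k : ℕ)) =
      rep a q j i * ((Real.sqrt (a.choose j) : ℂ) *
        ((qα p * x - star (qβ p)) ^ (j : ℕ) * (qβ p * x + star (qα p)) ^ (a - j))) := fun j => by
    rw [← rep_col, Finset.mul_sum]
    exact Finset.sum_congr rfl fun k _ => by ring
  simp only [e, rep_col_hom]
  rw [rep_col]
  have ha : qα (p * q) = qα p * qα q - qβ p * star (qβ q) := by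
    apply Complex.ext <;> simp [qα, qβ] <;> ring
  have hb : qβ (p * q) = qα p * qβ q + qβ p * star (qα q) := by
    apply Complex.ext <;> simp [qα, qβ] <;> ring
  rw [ha, hb, star_sub, star_add, star_mul', star_mul', star_mul', star_mul', star_star, star_star]
  ring_nf

theorem qα_one : qα (1 : ℍ[ℝ]) = 1 := by apply Complex.ext <;> simp [qα]

theorem qβ_one : qβ (1 : ℍ[ℝ]) = 0 := by apply Complex.ext <;> simp [qβ]

theorem rep_one : rep a 1 = 1 := by
  refine ext_col a fun i x => ?_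
  rw [rep_col, qα_one, qβ_one]
  simp [Matrix.one_apply]

theorem rep_smul (r : ℝ) (q : ℍ[ℝ]) : rep a (r • q) = (r : ℂ) ^ a • rep a q := by
  refine ext_col a fun i x => ?_
  have ha : qα (r • q) = (r : ℂ) * qα q := by apply Complex.ext <;> simp [qα]
  have hb : qβ (r • q) = (r : ℂ) * qβ q := by apply Complex.ext <;> simp [qβ]
  simp only [Matrix.smul_apply, smul_eq_mul, mul_assoc, ← Finset.mul_sum, rep_col, ha, hb,
    star_mul', show star (r : ℂ) = (r : ℂ) from Complex.conj_ofReal r]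
  have ea : (r : ℂ) ^ a = (r : ℂ) ^ (i : ℕ) * (r : ℂ) ^ (a - i) := by
    rw [← pow_add, Nat.add_sub_cancel' (Nat.lt_succ_iff.1 i.2)]
  rw [ea]
  simp only [← mul_sub, ← mul_add, mul_pow]
  ring

theorem rep_star (q : ℍ[ℝ]) : rep a (star q) = (rep a q)ᴴ := by
  refine ext_genFun a fun x y => ?_
  have ha : qα (star q) = star (qα q) := by apply Complex.ext <;> simp [qα]
  have hb : qβ (star q) = -qβ q := by apply Complex.ext <;> simp [qβ]
  rw [Matrix.conjTranspose, genFun_map_star, genFun_transpose, genFun_rep, genFun_rep, ha, hb]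
  simp only [star_pow, star_add, star_sub, star_mul', star_star, star_neg]
  ring

/-- The components of the imaginary units. -/
theorem imUnit_comp :
    ((imUnit 0).re = 0 ∧ (imUnit 0).imI = 1 ∧ (imUnit 0).imJ = 0 ∧ (imUnit 0).imK = 0) ∧
    ((imUnit 1).re = 0 ∧ (imUnit 1).imI = 0 ∧ (imUnit 1).imJ = 1 ∧ (imUnit 1).imK = 0) ∧
    ((imUnit 2).re = 0 ∧ (imUnit 2).imI = 0 ∧ (imUnit 2).imJ = 0 ∧ (imUnit 2).imK = 1) :=
  ⟨⟨rfl, rfl, rfl, rfl⟩, ⟨rfl, rfl, rfl, rfl⟩, ⟨rfl, rfl, rfl, rfl⟩⟩

theorem qα_j : qα (imUnit 1) = 0 := by apply Complex.ext <;> simp [qα, imUnit_comp]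

theorem qβ_j : qβ (imUnit 1) = 1 := by apply Complex.ext <;> simp [qβ, imUnit_comp]

/-- Conjugation is realised by the quaternion `-j q j`. -/
theorem rep_map_star (q : ℍ[ℝ]) : (rep a q).map star = rep a (-(imUnit 1 * q * imUnit 1)) := by
  refine ext_genFun a fun x y => ?_
  have ha : qα (-(imUnit 1 * q * imUnit 1)) = star (qα q) := by
    apply Complex.ext <;> simp [qα, imUnit_comp]
  have hb : qβ (-(imUnit 1 * q * imUnit 1)) = star (qβ q) := by
    apply Complex.ext <;> simp [qβ, imUnit_comp]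
  rw [genFun_map_star, genFun_rep, genFun_rep, ha, hb]
  simp only [star_pow, star_add, star_sub, star_mul', star_star]

theorem imUnit_sq (k : Fin 3) : imUnit k * imUnit k = -1 := by
  obtain rfl | rfl | rfl : k = 0 ∨ k = 1 ∨ k = 2 := (by omega) <;> ext <;> simp [imUnit_comp]

theorem star_imUnit (k : Fin 3) : star (imUnit k) = -imUnit k := by
  obtain rfl | rfl | rfl : k = 0 ∨ k = 1 ∨ k = 2 := (by omega) <;> ext <;> simp [imUnit_comp]

theorem rep_real (q : ℍ[ℝ]) : conjJ a * (rep a q).map star = rep a q * conjJ a := by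
  rw [rep_map_star, conjJ, ← rep_mul, ← rep_mul]
  congr 1
  rw [mul_neg, ← mul_assoc, ← mul_assoc, imUnit_sq, neg_one_mul, neg_mul, neg_neg]

theorem conjJ_sq : conjJ a * (conjJ a).map star = ((-1 : ℂ) ^ a) • 1 := by
  rw [conjJ, rep_map_star, ← rep_mul, imUnit_sq, neg_one_mul, neg_neg, imUnit_sq,
    show (-1 : ℍ[ℝ]) = (-1 : ℝ) • 1 by simp, rep_smul, rep_one]
  simp

/-- A polynomial family with smooth coefficients. -/
def SmoothCoeff (n : WithTop ℕ∞) (P : ℍ[ℝ] → ℂ[X]) : Prop :=
  ∀ k, ContDiff ℝ n fun q => (P q).coeff k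

theorem SmoothCoeff.mul {n : WithTop ℕ∞} {P Q : ℍ[ℝ] → ℂ[X]} (hP : SmoothCoeff n P)
    (hQ : SmoothCoeff n Q) : SmoothCoeff n fun q => P q * Q q := by
  intro k
  simp only [Polynomial.coeff_mul]
  exact ContDiff.sum fun x _ => (hP x.1).mul (hQ x.2)

theorem SmoothCoeff.pow {n : WithTop ℕ∞} {P : ℍ[ℝ] → ℂ[X]} (hP : SmoothCoeff n P) (m : ℕ) :
    SmoothCoeff n fun q => P q ^ m := by
  induction m with
  | zero =>
    intro k
    simp only [pow_zero]
    exact contDiff_const
  | succ m ih =>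
    simp only [pow_succ]
    exact ih.mul hP

theorem smoothCoeff_linear {n : WithTop ℕ∞} {f g : ℍ[ℝ] → ℂ} (hf : ContDiff ℝ n f)
    (hg : ContDiff ℝ n g) :
    SmoothCoeff n fun q => Polynomial.C (f q) * Polynomial.X + Polynomial.C (g q) := by
  intro k
  rcases k with _ | _ | k
  · simpa using hg
  · simpa using hf
  · simp only [Polynomial.coeff_add, Polynomial.coeff_C_mul, Polynomial.coeff_X,
      Polynomial.coeff_C]
    simpa using contDiff_const

/-- `qα` as a linear map. -/
def qαL : ℍ[ℝ] →L[ℝ] ℂ :=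
  LinearMap.toContinuousLinearMap
    { toFun := qα
      map_add' := fun p q => by apply Complex.ext <;> simp [qα]
      map_smul' := fun r q => by apply Complex.ext <;> simp [qα] }

/-- `qβ` as a linear map. -/
def qβL : ℍ[ℝ] →L[ℝ] ℂ :=
  LinearMap.toContinuousLinearMap
    { toFun := qβ
      map_add' := fun p q => by apply Complex.ext <;> simp [qβ]
      map_smul' := fun r q => by apply Complex.ext <;> simp [qβ] }

theorem rep_contDiff {n : WithTop ℕ∞} : ContDiff ℝ n (rep a) := by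
  have hα : ContDiff ℝ n qα := qαL.contDiff
  have hβ : ContDiff ℝ n qβ := qβL.contDiff
  have hα' : ContDiff ℝ n fun q => star (qα q) :=
    (Complex.conjCLE : ℂ →L[ℝ] ℂ).contDiff.comp hα
  have hβ' : ContDiff ℝ n fun q => -star (qβ q) :=
    ((Complex.conjCLE : ℂ →L[ℝ] ℂ).contDiff.comp hβ).neg
  have h1 : SmoothCoeff n fun q => Polynomial.C (qα q) * X - Polynomial.C (star (qβ q)) := by
    simpa [sub_eq_add_neg] using smoothCoeff_linear hα hβ'
  have h2 := smoothCoeff_linear hβ hα'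
  have e : rep a = fun q => ∑ k : Fin (a + 1), ∑ i : Fin (a + 1),
      rep a q k i • Matrix.single k i (1 : ℂ) := by
    funext q
    conv_lhs => rw [Matrix.matrix_eq_sum_single (rep a q)]
    simp [Matrix.smul_single]
  rw [e]
  refine ContDiff.sum fun k _ => ContDiff.sum fun i _ => ContDiff.smul (f := fun q => rep a q k i) ?_ contDiff_const
  exact contDiff_const.mul (((h1.pow i).mul (h2.pow (a - i))) k)

theorem norm_rep_le (q : ℍ[ℝ]) : ‖rep a q‖ ≤ ‖q‖ ^ a := by
  have h : (rep a q)ᴴ * rep a q = (((‖q‖ ^ 2) ^ a : ℝ) : ℂ) • 1 := by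
    rw [← rep_star, ← rep_mul, Quaternion.star_mul_self, Quaternion.normSq_eq_norm_mul_self, ← sq,
      show ((‖q‖ ^ 2 : ℝ) : ℍ[ℝ]) = (‖q‖ ^ 2) • (1 : ℍ[ℝ]) by
        rw [← Quaternion.coe_mul_eq_smul, mul_one],
      rep_smul, rep_one]
    simp
  have h2 : ‖rep a q‖ * ‖rep a q‖ ≤ (‖q‖ ^ a) * (‖q‖ ^ a) := by
    rw [← Matrix.l2_opNorm_conjTranspose_mul_self, h]
    refine le_trans (le_of_eq (norm_smul _ _)) ?_
    rw [norm_one, mul_one, Complex.norm_real, Real.norm_eq_abs, abs_of_nonneg (by positivity),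
      ← pow_add, ← pow_mul]
    exact le_of_eq (by congr 1; omega)
  nlinarith [norm_nonneg (rep a q), pow_nonneg (norm_nonneg q) a]

/-- Left multiplication of matrices as a real linear map. -/
def mulLeftL (A : Matrix (Fin (a + 1)) (Fin (a + 1)) ℂ) :
    Matrix (Fin (a + 1)) (Fin (a + 1)) ℂ →L[ℝ] Matrix (Fin (a + 1)) (Fin (a + 1)) ℂ :=
  LinearMap.toContinuousLinearMap (LinearMap.mulLeft ℝ A)

/-- Right multiplication of matrices as a real linear map. -/
def mulRightL (A : Matrix (Fin (a + 1)) (Fin (a + 1)) ℂ) :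
    Matrix (Fin (a + 1)) (Fin (a + 1)) ℂ →L[ℝ] Matrix (Fin (a + 1)) (Fin (a + 1)) ℂ :=
  LinearMap.toContinuousLinearMap (LinearMap.mulRight ℝ A)

theorem rep_hasFDerivAt (q : ℍ[ℝ]) : HasFDerivAt (rep a) (fderiv ℝ (rep a) q) q :=
  (((rep_contDiff a (n := 1)).differentiable one_ne_zero) q).hasFDerivAt

/-- If `rep` intertwines two linear maps, so does its derivative. -/
theorem fderiv_intertwine (L : ℍ[ℝ] →L[ℝ] ℍ[ℝ])
    (R : Matrix (Fin (a + 1)) (Fin (a + 1)) ℂ →L[ℝ] Matrix (Fin (a + 1)) (Fin (a + 1)) ℂ)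
    (h : ∀ p, rep a (L p) = R (rep a p)) (p v : ℍ[ℝ]) :
    fderiv ℝ (rep a) (L p) (L v) = R (fderiv ℝ (rep a) p v) := by
  have e : (fun p => rep a (L p)) = fun p => R (rep a p) := funext h
  have h1 := (rep_hasFDerivAt a (L p)).comp p L.hasFDerivAt
  have h2 := R.hasFDerivAt.comp p (rep_hasFDerivAt a p)
  rw [Function.comp_def] at h1 h2
  rw [e] at h1
  exact DFunLike.congr_fun (h1.unique h2) v

/-- Directional derivative along the left-invariant and right-invariant directions. -/
theorem fderiv_rep_imUnit_mul (q : ℍ[ℝ]) (k : Fin 3) :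
    fderiv ℝ (rep a) q (imUnit k * q) = (2 : ℂ) • (gen a k * rep a q) := by
  have h := fderiv_intertwine a ((ContinuousLinearMap.mul ℝ ℍ[ℝ]).flip q) (mulRightL a (rep a q))
    (fun p => by simp [mulRightL, rep_mul]) 1 (imUnit k)
  simpa [mulRightL, gen, smul_smul] using h

theorem fderiv_rep_mul_imUnit (q : ℍ[ℝ]) (k : Fin 3) :
    fderiv ℝ (rep a) q (q * imUnit k) = (2 : ℂ) • (rep a q * gen a k) := by
  have h := fderiv_intertwine a (ContinuousLinearMap.mul ℝ ℍ[ℝ] q) (mulLeftL a (rep a q))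
    (fun p => by simp [mulLeftL, rep_mul]) 1 (imUnit k)
  simpa [mulLeftL, gen, smul_smul] using h

theorem fderiv_rep_self (q : ℍ[ℝ]) : fderiv ℝ (rep a) q q = (a : ℂ) • rep a q := by
  have hc : HasDerivAt (fun r : ℝ => r • q) q 1 := by
    simpa using (hasDerivAt_id (1 : ℝ)).smul_const q
  have h1 := (show HasFDerivAt (rep a) (fderiv ℝ (rep a) q) ((1 : ℝ) • q) by
    rw [one_smul]; exact rep_hasFDerivAt a q).comp_hasDerivAt (1 : ℝ) hc
  have h2 : HasDerivAt (fun r : ℝ => (r : ℂ) ^ a • rep a q) ((a : ℂ) • rep a q) 1 := by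
    have h3 := (((hasDerivAt_id (1 : ℝ)).ofReal_comp).fun_pow a).smul_const (rep a q)
    simpa using h3
  rw [Function.comp_def] at h1
  simp only [rep_smul] at h1
  exact h1.unique h2

theorem gen_skew (k : Fin 3) : (gen a k)ᴴ = -gen a k := by
  let cT : Matrix (Fin (a + 1)) (Fin (a + 1)) ℂ →L[ℝ] Matrix (Fin (a + 1)) (Fin (a + 1)) ℂ :=
    LinearMap.toContinuousLinearMap
      { toFun := fun M => Mᴴ
        map_add' := Matrix.conjTranspose_add
        map_smul' := fun r M => by ext i j; simp [Complex.real_smul] }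
  let sT : ℍ[ℝ] →L[ℝ] ℍ[ℝ] :=
    LinearMap.toContinuousLinearMap
      { toFun := fun p => star p
        map_add' := star_add
        map_smul' := fun r p => by simp }
  have h : fderiv ℝ (rep a) (star 1) (star (imUnit k)) = (fderiv ℝ (rep a) 1 (imUnit k))ᴴ :=
    fderiv_intertwine a sT cT (fun p => rep_star a p) 1 (imUnit k)
  rw [star_one, star_imUnit, map_neg] at h
  rw [gen, Matrix.conjTranspose_smul, ← h, smul_neg]
  simp

theorem gen_real (k : Fin 3) : conjJ a * (gen a k).map star = gen a k * conjJ a := by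
  let L : Matrix (Fin (a + 1)) (Fin (a + 1)) ℂ →L[ℝ] Matrix (Fin (a + 1)) (Fin (a + 1)) ℂ :=
    LinearMap.toContinuousLinearMap
      { toFun := fun M => conjJ a * M.map star
        map_add' := fun M N => by rw [Matrix.map_add _ star_add, Matrix.mul_add]
        map_smul' := fun r M => by
          rw [RingHom.id_apply, ← Matrix.mul_smul]
          congr 1
          ext i j
          simp [Complex.real_smul] }
  have h1 := (L.hasFDerivAt (x := rep a 1)).comp (1 : ℍ[ℝ]) (rep_hasFDerivAt a 1)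
  have h2 := ((mulRightL a (conjJ a)).hasFDerivAt (x := rep a 1)).comp (1 : ℍ[ℝ])
    (rep_hasFDerivAt a 1)
  have e : (L : _ → _) ∘ rep a = (mulRightL a (conjJ a) : _ → _) ∘ rep a :=
    funext fun p => by simpa [L, mulRightL] using rep_real a p
  rw [e] at h1
  have h : conjJ a * (fderiv ℝ (rep a) 1 (imUnit k)).map star =
      fderiv ℝ (rep a) 1 (imUnit k) * conjJ a := DFunLike.congr_fun (h1.unique h2) (imUnit k)
  have e2 : (gen a k).map star = (2⁻¹ : ℂ) • (fderiv ℝ (rep a) 1 (imUnit k)).map star := by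
    ext i j
    simp [gen, map_ofNat]
  rw [e2, gen, Matrix.mul_smul, h, Matrix.smul_mul]

/-- The weight matrix. -/
def opH : Matrix (Fin (a + 1)) (Fin (a + 1)) ℂ := Matrix.diagonal fun k => 2 * (k : ℕ) - (a : ℂ)

/-- The raising matrix. -/
def opE : Matrix (Fin (a + 1)) (Fin (a + 1)) ℂ := fun k i =>
  if (k : ℕ) = i + 1 then ((a - i : ℕ) : ℂ) * (Real.sqrt (a.choose i) / Real.sqrt (a.choose k)) else 0

/-- The lowering matrix. -/
def opF : Matrix (Fin (a + 1)) (Fin (a + 1)) ℂ := fun k i =>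
  if (k : ℕ) + 1 = i then (i : ℂ) * (Real.sqrt (a.choose i) / Real.sqrt (a.choose k)) else 0

theorem col_opH (i : Fin (a + 1)) (x : ℂ) :
    ∑ k, opH a k i * ((Real.sqrt (a.choose k) : ℂ) * x ^ (k : ℕ)) =
      (Real.sqrt (a.choose i) : ℂ) * ((2 * (i : ℕ) - (a : ℂ)) * x ^ (i : ℕ)) := by
  simp [opH, Matrix.diagonal_apply]
  ring

theorem col_opE (i : Fin (a + 1)) (x : ℂ) :
    ∑ k, opE a k i * ((Real.sqrt (a.choose k) : ℂ) * x ^ (k : ℕ)) =
      (Real.sqrt (a.choose i) : ℂ) * (((a - i : ℕ) : ℂ) * x ^ ((i : ℕ) + 1)) := by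
  by_cases hi : (i : ℕ) + 1 < a + 1
  · rw [Finset.sum_eq_single ⟨(i : ℕ) + 1, hi⟩]
    · have := wt_ne (⟨(i : ℕ) + 1, hi⟩ : Fin (a + 1))
      simp only [opE, if_true]
      field_simp
    · intro k _ hk
      have : (k : ℕ) ≠ i + 1 := fun e => hk (Fin.ext e)
      simp [opE, this]
    · simp
  · have h0 : a - (i : ℕ) = 0 := by omega
    simp [opE, h0]

theorem col_opF (i : Fin (a + 1)) (x : ℂ) :
    ∑ k, opF a k i * ((Real.sqrt (a.choose k) : ℂ) * x ^ (k : ℕ)) =
      (Real.sqrt (a.choose i) : ℂ) * ((i : ℂ) * x ^ ((i : ℕ) - 1)) := by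
  rcases Nat.eq_zero_or_pos (i : ℕ) with hi | hi
  · simp [opF, hi]
  · rw [Finset.sum_eq_single ⟨(i : ℕ) - 1, by omega⟩]
    · have := wt_ne (⟨(i : ℕ) - 1, by omega⟩ : Fin (a + 1))
      simp only [opF, show (i : ℕ) - 1 + 1 = i by omega, if_true]
      field_simp
    · intro k _ hk
      have : (k : ℕ) + 1 ≠ i := fun e => hk (Fin.ext (by simp only; omega))
      simp [opF, this]
    · simp

/-- The derivative of a column along a line. -/
theorem col_fderiv (v : ℍ[ℝ]) (i : Fin (a + 1)) (x : ℂ) :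
    ∑ k, fderiv ℝ (rep a) 1 v k i * ((Real.sqrt (a.choose k) : ℂ) * x ^ (k : ℕ)) =
      (Real.sqrt (a.choose i) : ℂ) * (((i : ℕ) : ℂ) * x ^ ((i : ℕ) - 1) * (qα v * x - star (qβ v)) +
        ((a - i : ℕ) : ℂ) * x ^ (i : ℕ) * (qβ v * x + star (qα v))) := by
  let ev : Matrix (Fin (a + 1)) (Fin (a + 1)) ℂ →L[ℝ] ℂ :=
    LinearMap.toContinuousLinearMap
      { toFun := fun M => ∑ k, M k i * ((Real.sqrt (a.choose k) : ℂ) * x ^ (k : ℕ))
        map_add' := fun M N => by simp [add_mul, Finset.sum_add_distrib]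
        map_smul' := fun r M => by simp [Complex.real_smul, Finset.mul_sum, mul_assoc] }
  have hc : HasDerivAt (fun s : ℝ => (1 : ℍ[ℝ]) + s • v) v 0 := by
    simpa using ((hasDerivAt_id (0 : ℝ)).smul_const v).const_add (1 : ℍ[ℝ])
  have h1 := ev.hasFDerivAt.comp_hasDerivAt (0 : ℝ) ((show HasFDerivAt (rep a)
    (fderiv ℝ (rep a) 1) ((1 : ℍ[ℝ]) + (0 : ℝ) • v) by
      rw [zero_smul, add_zero]; exact rep_hasFDerivAt a 1).comp_hasDerivAt (0 : ℝ) hc)
  have lin : ∀ (c d : ℂ), HasDerivAt (fun s : ℝ => c + (s : ℂ) * d) d 0 := fun c d => by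
    simpa using (((hasDerivAt_id (0 : ℝ)).ofReal_comp).mul_const d).const_add c
  have e : (ev : _ → _) ∘ (rep a ∘ fun s : ℝ => (1 : ℍ[ℝ]) + s • v) = fun s : ℝ =>
      (Real.sqrt (a.choose i) : ℂ) * ((x + (s : ℂ) * (qα v * x - star (qβ v))) ^ (i : ℕ) *
        (1 + (s : ℂ) * (qβ v * x + star (qα v))) ^ (a - i)) := by
    funext s
    show ∑ k, rep a _ k i * _ = _
    have ha : qα ((1 : ℍ[ℝ]) + s • v) = 1 + (s : ℂ) * qα v := by
      apply Complex.ext <;> simp [qα]
    have hb : qβ ((1 : ℍ[ℝ]) + s • v) = (s : ℂ) * qβ v := by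
      apply Complex.ext <;> simp [qβ]
    rw [rep_col, ha, hb, star_add, star_mul', star_mul', star_one,
      show star (s : ℂ) = (s : ℂ) from Complex.conj_ofReal s]
    ring
  rw [e] at h1
  have h2 := (((lin x (qα v * x - star (qβ v))).fun_pow (i : ℕ)).fun_mul
    ((lin 1 (qβ v * x + star (qα v))).fun_pow (a - i))).const_mul (Real.sqrt (a.choose i) : ℂ)
  refine Eq.trans (h1.unique h2) ?_
  simp
  left
  ring

theorem gen_zero_eq : gen a 0 = (Complex.I / 2) • opH a := by
  refine ext_col a fun i x => ?_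
  simp only [gen, Matrix.smul_apply, smul_eq_mul, mul_assoc, ← Finset.mul_sum, col_fderiv, col_opH]
  have ha : qα (imUnit 0) = Complex.I := by apply Complex.ext <;> simp [qα, imUnit_comp]
  have hb : qβ (imUnit 0) = 0 := by apply Complex.ext <;> simp [qβ, imUnit_comp]
  have hi := Nat.lt_succ_iff.1 i.2
  rw [ha, hb, show star Complex.I = -Complex.I from Complex.conj_I, star_zero,
    Nat.cast_sub hi]
  rcases Nat.eq_zero_or_pos (i : ℕ) with h | h
  · simp [h]; ring
  · have e : x ^ (i : ℕ) = x ^ ((i : ℕ) - 1) * x := by rw [← pow_succ]; congr 1; omega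
    rw [e]
    ring

theorem gen_one_eq : gen a 1 = (2⁻¹ : ℂ) • (opE a - opF a) := by
  refine ext_col a fun i x => ?_
  simp only [gen, Matrix.smul_apply, Matrix.sub_apply, smul_eq_mul, sub_mul, mul_sub, mul_assoc,
    Finset.sum_sub_distrib, ← Finset.mul_sum, col_fderiv, col_opE, col_opF, qα_j, qβ_j, star_one,
    star_zero]
  rw [pow_succ]
  ring

theorem gen_two_eq : gen a 2 = (Complex.I / 2) • (opE a + opF a) := by
  refine ext_col a fun i x => ?_
  have ha : qα (imUnit 2) = 0 := by apply Complex.ext <;> simp [qα, imUnit_comp]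
  have hb : qβ (imUnit 2) = Complex.I := by apply Complex.ext <;> simp [qβ, imUnit_comp]
  simp only [gen, Matrix.smul_apply, Matrix.add_apply, smul_eq_mul, add_mul, mul_add, mul_assoc,
    Finset.sum_add_distrib, ← Finset.mul_sum, col_fderiv, col_opE, col_opF, ha, hb, star_zero,
    show star Complex.I = -Complex.I from Complex.conj_I]
  rw [pow_succ]
  ring

theorem opE_mul_opF :
    opE a * opF a = Matrix.diagonal fun i : Fin (a + 1) => ((i : ℕ) : ℂ) * ((a : ℂ) - (i : ℕ) + 1) := by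
  ext k i
  rw [Matrix.mul_apply]
  rcases Nat.eq_zero_or_pos (i : ℕ) with hi | hi
  · rw [Finset.sum_eq_zero (fun j _ => by simp [opF, hi]), Matrix.diagonal_apply]
    split_ifs with h
    · subst h; simp [hi]
    · rfl
  · rw [Finset.sum_eq_single ⟨(i : ℕ) - 1, by omega⟩]
    · by_cases h : k = i
      · subst h
        simp only [opE, opF, show (k : ℕ) - 1 + 1 = k by omega, if_true, Matrix.diagonal_apply_eq]
        have h1 := wt_ne (⟨(k : ℕ) - 1, by omega⟩ : Fin (a + 1))
        have h2 := wt_ne k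
        rw [Nat.cast_sub (by omega), Nat.cast_sub (by omega)]
        field_simp
        push_cast
        ring
      · rw [Matrix.diagonal_apply_ne _ h]
        simp only [opE, show (i : ℕ) - 1 + 1 = i by omega]
        rw [if_neg (fun e => h (Fin.ext e)), zero_mul]
    · intro j _ hj
      have : (j : ℕ) + 1 ≠ i := fun e => hj (Fin.ext (by simp only; omega))
      simp [opF, this]
    · simp

theorem opF_mul_opE :
    opF a * opE a = Matrix.diagonal fun i : Fin (a + 1) => (((i : ℕ) : ℂ) + 1) * ((a : ℂ) - (i : ℕ)) := by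
  ext k i
  rw [Matrix.mul_apply]
  by_cases hi : (i : ℕ) + 1 < a + 1
  · rw [Finset.sum_eq_single ⟨(i : ℕ) + 1, hi⟩]
    · by_cases h : k = i
      · subst h
        simp only [opE, opF, if_true, Matrix.diagonal_apply_eq]
        have h1 := wt_ne (⟨(k : ℕ) + 1, hi⟩ : Fin (a + 1))
        have h2 := wt_ne k
        rw [Nat.cast_sub (by omega)]
        field_simp
        push_cast
        ring
      · rw [Matrix.diagonal_apply_ne _ h]
        simp only [opF]
        rw [if_neg (fun e => h (Fin.ext (by omega))), zero_mul]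
    · intro j _ hj
      have : (j : ℕ) ≠ i + 1 := fun e => hj (Fin.ext (by simpa using e))
      simp [opE, this]
    · simp
  · have h0 : a - (i : ℕ) = 0 := by omega
    have h1 : (a : ℂ) = ((i : ℕ) : ℂ) := by exact_mod_cast (show a = (i : ℕ) by omega)
    simp [opE, h0, Matrix.diagonal_apply]
    rintro rfl
    simp [h1]

theorem opH_opE : opH a * opE a - opE a * opH a = (2 : ℂ) • opE a := by
  ext k i
  simp only [opH, Matrix.sub_apply, Matrix.diagonal_mul, Matrix.mul_diagonal, Matrix.smul_apply,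
    smul_eq_mul]
  by_cases h : (k : ℕ) = i + 1
  · simp only [h]; push_cast; ring
  · simp [opE, h]

theorem opH_opF : opH a * opF a - opF a * opH a = (-2 : ℂ) • opF a := by
  ext k i
  simp only [opH, Matrix.sub_apply, Matrix.diagonal_mul, Matrix.mul_diagonal, Matrix.smul_apply,
    smul_eq_mul]
  by_cases h : (k : ℕ) + 1 = i
  · simp only [← h]; push_cast; ring
  · simp [opF, h]

theorem opE_opF : opE a * opF a - opF a * opE a = opH a := by
  rw [opE_mul_opF, opF_mul_opE, Matrix.diagonal_sub, opH]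
  congr 1
  funext i
  ring

theorem gen_bracket (k : Fin 3) :
    gen a (k + 1) * gen a (k + 2) - gen a (k + 2) * gen a (k + 1) = gen a k := by
  have hEF := opE_opF a
  have hHE := opH_opE a
  have hHF := opH_opF a
  have hI : Complex.I / 2 * (Complex.I / 2) = -(4⁻¹ : ℂ) := by
    linear_combination (1 / 4 : ℂ) * Complex.I_mul_I
  fin_cases k
  · show gen a 1 * gen a 2 - gen a 2 * gen a 1 = gen a 0
    rw [gen_zero_eq, gen_one_eq, gen_two_eq]
    simp only [Matrix.smul_mul, Matrix.mul_smul, ← hEF, Matrix.sub_mul, Matrix.mul_sub,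
      Matrix.add_mul, Matrix.mul_add]
    module
  · show gen a 2 * gen a 0 - gen a 0 * gen a 2 = gen a 1
    rw [gen_zero_eq, gen_one_eq, gen_two_eq]
    simp only [Matrix.smul_mul, Matrix.mul_smul, smul_smul, Matrix.mul_add, Matrix.add_mul, hI]
    linear_combination (norm := skip) (4⁻¹ : ℂ) • hHE + (4⁻¹ : ℂ) • hHF
    match_scalars <;> ring_nf <;> simp [Complex.I_sq]
  · show gen a 0 * gen a 1 - gen a 1 * gen a 0 = gen a 2
    rw [gen_zero_eq, gen_one_eq, gen_two_eq]
    simp only [Matrix.smul_mul, Matrix.mul_smul, smul_smul, Matrix.mul_sub, Matrix.sub_mul]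
    linear_combination (norm := module) (Complex.I / 4) • hHE - (Complex.I / 4) • hHF

theorem gen_casimir : ∑ k, gen a k * gen a k = (-cas a : ℂ) • (1 : Matrix (Fin (a + 1)) (Fin (a + 1)) ℂ) := by
  have hI : Complex.I / 2 * (Complex.I / 2) = -(4⁻¹ : ℂ) := by
    linear_combination (1 / 4 : ℂ) * Complex.I_mul_I
  have h : opH a * opH a + (2 : ℂ) • (opE a * opF a + opF a * opE a) =
      ((a : ℂ) * (a + 2)) • (1 : Matrix (Fin (a + 1)) (Fin (a + 1)) ℂ) := by
    rw [opE_mul_opF, opF_mul_opE, opH, Matrix.diagonal_mul_diagonal, Matrix.diagonal_add,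
      ← Matrix.diagonal_smul, Matrix.diagonal_add, Matrix.smul_one_eq_diagonal]
    congr 1
    funext i
    simp only [Pi.smul_apply, smul_eq_mul]
    ring
  rw [Fin.sum_univ_three, gen_zero_eq, gen_one_eq, gen_two_eq]
  simp only [Matrix.smul_mul, Matrix.mul_smul, smul_smul, Matrix.mul_sub, Matrix.sub_mul,
    Matrix.mul_add, Matrix.add_mul, hI]
  rw [show ((cas a : ℝ) : ℂ) = (4⁻¹ : ℂ) * ((a : ℂ) * (a + 2)) by unfold cas; push_cast; ring]
  linear_combination (norm := skip) (-(4⁻¹ : ℂ)) • h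
  match_scalars <;> ring_nf <;> simp [Complex.I_sq]

/-- The generators generate the whole matrix algebra over `ℂ`. -/
theorem gen_adjoin_eq_top : Algebra.adjoin ℂ (Set.range (gen a)) = ⊤ := by
  set S := Algebra.adjoin ℂ (Set.range (gen a))
  have hg : ∀ k, gen a k ∈ S := fun k => Algebra.subset_adjoin ⟨k, rfl⟩
  have hH : opH a ∈ S := by
    have e : opH a = (-2 * Complex.I) • gen a 0 := by
      rw [gen_zero_eq, smul_smul, show -2 * Complex.I * (Complex.I / 2) = 1 by
        linear_combination -Complex.I_mul_I, one_smul]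
    rw [e]
    exact S.smul_mem (hg 0) _
  have hI : -Complex.I * (Complex.I / 2) = (2⁻¹ : ℂ) := by
    linear_combination (-1 / 2 : ℂ) * Complex.I_mul_I
  have hE : opE a ∈ S := by
    have e : opE a = gen a 1 + (-Complex.I) • gen a 2 := by
      rw [gen_one_eq, gen_two_eq, smul_smul, hI]
      module
    rw [e]
    exact S.add_mem (hg 1) (S.smul_mem (hg 2) _)
  have hF : opF a ∈ S := by
    have e : opF a = (-Complex.I) • gen a 2 - gen a 1 := by
      rw [gen_one_eq, gen_two_eq, smul_smul, hI]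
      module
    rw [e]
    exact S.sub_mem (S.smul_mem (hg 2) _) (hg 1)
  have h00 : Matrix.single (0 : Fin (a + 1)) 0 (1 : ℂ) ∈ S := by
    have hd : ∀ s : Finset (Fin (a + 1)), (Matrix.diagonal fun i : Fin (a + 1) =>
        ∏ j ∈ s, (2 * ((i : ℕ) : ℂ) - 2 * ((j : ℕ) : ℂ))) ∈ S := by
      intro s
      induction s using Finset.induction with
      | empty => simp
      | @insert j s hj ih =>
        have e : (Matrix.diagonal fun i : Fin (a + 1) =>
            ∏ l ∈ insert j s, (2 * ((i : ℕ) : ℂ) - 2 * ((l : ℕ) : ℂ))) =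
            (opH a - (2 * ((j : ℕ) : ℂ) - a) • 1) * Matrix.diagonal fun i : Fin (a + 1) =>
              ∏ l ∈ s, (2 * ((i : ℕ) : ℂ) - 2 * ((l : ℕ) : ℂ)) := by
          rw [opH, Matrix.smul_one_eq_diagonal, Matrix.diagonal_sub, Matrix.diagonal_mul_diagonal]
          congr 1
          funext i
          rw [Finset.prod_insert hj]
          ring
        rw [e]
        exact S.mul_mem (S.sub_mem hH (S.smul_mem S.one_mem _)) ih
    set c : ℂ := ∏ j ∈ Finset.univ.erase (0 : Fin (a + 1)), (2 * ((0 : ℕ) : ℂ) - 2 * ((j : ℕ) : ℂ))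
      with hc
    have hc0 : c ≠ 0 := Finset.prod_ne_zero_iff.2 fun j hj => by
      have : (j : ℕ) ≠ 0 := fun e => (Finset.mem_erase.1 hj).1 (Fin.ext e)
      simp [this]
    have e : Matrix.single (0 : Fin (a + 1)) 0 (1 : ℂ) =
        c⁻¹ • Matrix.diagonal fun i : Fin (a + 1) =>
          ∏ j ∈ Finset.univ.erase (0 : Fin (a + 1)), (2 * ((i : ℕ) : ℂ) - 2 * ((j : ℕ) : ℂ)) := by
      rw [← Matrix.diagonal_smul, ← Matrix.diagonal_single]
      congr 1
      funext i
      by_cases hi : i = 0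
      · subst hi
        simp only [Pi.single_eq_same, Pi.smul_apply, smul_eq_mul, Fin.val_zero]
        exact (inv_mul_cancel₀ hc0).symm
      · rw [Pi.single_eq_of_ne hi, Pi.smul_apply,
          Finset.prod_eq_zero (Finset.mem_erase.2 ⟨hi, Finset.mem_univ i⟩) (sub_self _), smul_zero]
    rw [e]
    exact S.smul_mem (hd _) _
  have hcol : ∀ k (hk : k < a + 1), Matrix.single (⟨k, hk⟩ : Fin (a + 1)) (0 : Fin (a + 1)) (1 : ℂ) ∈ S ∧
      Matrix.single (0 : Fin (a + 1)) (⟨k, hk⟩ : Fin (a + 1)) (1 : ℂ) ∈ S := by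
    intro k
    induction k with
    | zero => exact fun hk => ⟨h00, h00⟩
    | succ k ih =>
      intro hk
      obtain ⟨i1, i2⟩ := ih (by omega)
      have hw1 := wt_ne (⟨k, by omega⟩ : Fin (a + 1))
      have hw2 := wt_ne (⟨k + 1, hk⟩ : Fin (a + 1))
      constructor
      · have e : Matrix.single (⟨k + 1, hk⟩ : Fin (a + 1)) (0 : Fin (a + 1)) (1 : ℂ) =
            (opE a ⟨k + 1, hk⟩ ⟨k, by omega⟩)⁻¹ •
              (opE a * Matrix.single (⟨k, by omega⟩ : Fin (a + 1)) (0 : Fin (a + 1)) (1 : ℂ)) := by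
          have h0 : opE a ⟨k + 1, hk⟩ ⟨k, by omega⟩ ≠ 0 := by
            simp only [opE, if_true]
            exact mul_ne_zero (by exact_mod_cast (show a - k ≠ 0 by omega)) (div_ne_zero hw1 hw2)
          ext p r
          rw [Matrix.smul_apply, smul_eq_mul]
          by_cases hr : r = 0
          · subst hr
            rw [Matrix.mul_single_apply_same, mul_one]
            by_cases hp : p = ⟨k + 1, hk⟩
            · subst hp
              rw [Matrix.single_apply_same, inv_mul_cancel₀ h0]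
            · rw [Matrix.single_apply, if_neg (by tauto)]
              have : (p : ℕ) ≠ k + 1 := fun e => hp (Fin.ext e)
              simp [opE, this]
          · rw [Matrix.mul_single_apply_of_ne (hbj := hr), Matrix.single_apply, if_neg (by tauto),
              mul_zero]
        exact Eq.subst (motive := fun X => X ∈ S) e.symm (S.smul_mem (S.mul_mem hE i1) _)
      · have e : Matrix.single (0 : Fin (a + 1)) (⟨k + 1, hk⟩ : Fin (a + 1)) (1 : ℂ) =
            (opF a ⟨k, by omega⟩ ⟨k + 1, hk⟩)⁻¹ •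
              (Matrix.single (0 : Fin (a + 1)) (⟨k, by omega⟩ : Fin (a + 1)) (1 : ℂ) * opF a) := by
          have h0 : opF a ⟨k, by omega⟩ ⟨k + 1, hk⟩ ≠ 0 := by
            simp only [opF, if_true]
            exact mul_ne_zero (by exact_mod_cast (show k + 1 ≠ 0 by omega)) (div_ne_zero hw2 hw1)
          ext p r
          rw [Matrix.smul_apply, smul_eq_mul]
          by_cases hp : p = 0
          · subst hp
            rw [Matrix.single_mul_apply_same, one_mul]
            by_cases hr : r = ⟨k + 1, hk⟩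
            · subst hr
              rw [Matrix.single_apply_same, inv_mul_cancel₀ h0]
            · rw [Matrix.single_apply, if_neg (by tauto)]
              have : (r : ℕ) ≠ k + 1 := fun e => hr (Fin.ext e)
              simp [opF, Ne.symm this]
          · rw [Matrix.single_mul_apply_of_ne (h := hp), Matrix.single_apply, if_neg (by tauto),
              mul_zero]
        exact Eq.subst (motive := fun X => X ∈ S) e.symm (S.smul_mem (S.mul_mem i2 hF) _)
  rw [eq_top_iff]
  intro M _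
  rw [Matrix.matrix_eq_sum_single M]
  refine sum_mem fun k _ => sum_mem fun i _ => ?_
  have := S.smul_mem (S.mul_mem (hcol k k.2).1 (hcol i i.2).2) (M k i)
  simpa [Matrix.single_mul_single_same, Matrix.smul_single] using this

/-- The entries of the representation of degree `a` are linearly independent functions on the
unit sphere. -/
theorem rep_independent (M : Matrix (Fin (a + 1)) (Fin (a + 1)) ℂ)
    (h : ∀ q : ℍ[ℝ], ‖q‖ = 1 → (M * rep a q).trace = 0) : M = 0 := by
  let P : Matrix (Fin (a + 1)) (Fin (a + 1)) ℂ → Prop := fun X =>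
    ∀ q : ℍ[ℝ], ‖q‖ = 1 → (M * rep a q * X).trace = 0
  have hgen : ∀ k X, P X → P (gen a k * X) := by
    intro k X hX q hq
    have hc : HasDerivAt (fun s : ℝ => Real.cos s • (1 : ℍ[ℝ]) + Real.sin s • imUnit k)
        (imUnit k) 0 := by
      simpa using ((Real.hasDerivAt_cos 0).smul_const (1 : ℍ[ℝ])).fun_add
        ((Real.hasDerivAt_sin 0).smul_const (imUnit k))
    have hn : ∀ s : ℝ, ‖Real.cos s • (1 : ℍ[ℝ]) + Real.sin s • imUnit k‖ = 1 := fun s => by
      have e : Quaternion.normSq (Real.cos s • (1 : ℍ[ℝ]) + Real.sin s • imUnit k) = 1 := by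
        rw [Quaternion.normSq_def']
        obtain rfl | rfl | rfl : k = 0 ∨ k = 1 ∨ k = 2 := (by omega) <;> simp [imUnit_comp]
      rw [Quaternion.normSq_eq_norm_mul_self] at e
      nlinarith [norm_nonneg (Real.cos s • (1 : ℍ[ℝ]) + Real.sin s • imUnit k)]
    let T : Matrix (Fin (a + 1)) (Fin (a + 1)) ℂ →L[ℝ] ℂ :=
      LinearMap.toContinuousLinearMap
        { toFun := fun Y => (M * rep a q * Y * X).trace
          map_add' := fun Y Z => by simp [Matrix.mul_add, Matrix.add_mul]
          map_smul' := fun r Y => by simp }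
    have h1 := T.hasFDerivAt.comp_hasDerivAt (0 : ℝ) ((show HasFDerivAt (rep a)
      (fderiv ℝ (rep a) 1) (Real.cos (0 : ℝ) • (1 : ℍ[ℝ]) + Real.sin (0 : ℝ) • imUnit k) by
        simpa using rep_hasFDerivAt a 1).comp_hasDerivAt (0 : ℝ) hc)
    have e : (T : _ → _) ∘ (rep a ∘ fun s : ℝ =>
        Real.cos s • (1 : ℍ[ℝ]) + Real.sin s • imUnit k) = fun _ => 0 := by
      funext s
      show (M * rep a q * rep a _ * X).trace = 0
      rw [Matrix.mul_assoc M, ← rep_mul]
      exact hX _ (by rw [norm_mul, hq, hn, one_mul])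
    rw [e] at h1
    have h2 : (M * rep a q * fderiv ℝ (rep a) 1 (imUnit k) * X).trace = 0 :=
      h1.unique (hasDerivAt_const (0 : ℝ) (0 : ℂ))
    simp only [gen, Matrix.smul_mul, Matrix.mul_smul, Matrix.trace_smul, ← Matrix.mul_assoc, h2,
      smul_zero]
  have hall : ∀ Y X, P X → P (Y * X) := fun Y => by
    have hY : Y ∈ Algebra.adjoin ℂ (Set.range (gen a)) :=
      gen_adjoin_eq_top a ▸ Algebra.mem_top
    induction hY using Algebra.adjoin_induction with
    | mem x hx => obtain ⟨k, rfl⟩ := hx; exact hgen k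
    | algebraMap r =>
      intro X hX q hq
      rw [← Algebra.smul_def, Matrix.mul_smul, Matrix.trace_smul, hX q hq, smul_zero]
    | add x y _ _ hx hy =>
      intro X hX q hq
      rw [Matrix.add_mul, Matrix.mul_add, Matrix.trace_add, hx X hX q hq, hy X hX q hq, add_zero]
    | mul x y _ _ hx hy =>
      intro X hX
      rw [Matrix.mul_assoc]
      exact hx _ (hy X hX)
  have h1 := hall Mᴴ 1 (fun q hq => by rw [Matrix.mul_one]; exact h q hq) 1 norm_one
  rw [rep_one, Matrix.mul_one, Matrix.mul_one] at h1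
  exact Matrix.trace_mul_conjTranspose_self_eq_zero_iff.1 h1

end Vale.Agent.P225.SU2
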