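import Vale.Agent.P225.SU2.Index

/-!
P225, module C: the functions of the points on triples of quaternions, their derivatives along the
left actions, and their independence.
-/

noncomputable section

namespace Vale.Agent.P225.SU2

open Matrix Finset
open scoped Quaternion ComplexOrder Matrix.Norms.L2Operator

attribute [local irreducible] rep inv coupN

/-- The function of a point: homogeneous of degree `lab x k` in the slot `k`, invariant under a
common left multiplication by unit quaternions. -/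
def pfun (x : Pnt) (g : Fin 3 → ℍ[ℝ]) : ℂ :=
  (Real.sqrt (∏ k, ((lab x k : ℝ) + 1)) : ℂ) *
    ∑ n : MIdx (lab x), inv (lab x) n * ∏ k, rep (lab x k) (g k) (n k) (x.2 k)

/-- An entry of a matrix, as a continuous real linear map. -/
def entryL (a : ℕ) (i j : Fin (a + 1)) :
    Matrix (Fin (a + 1)) (Fin (a + 1)) ℂ →L[ℝ] ℂ :=
  LinearMap.toContinuousLinearMap ((Matrix.entryLinearMap ℂ ℂ i j).restrictScalars ℝ)

theorem entryL_apply (a : ℕ) (i j : Fin (a + 1)) (M : Matrix (Fin (a + 1)) (Fin (a + 1)) ℂ) :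
    entryL a i j M = M i j := rfl

theorem rep_differentiable (a : ℕ) : Differentiable ℝ (rep a) :=
  (rep_contDiff a (n := ⊤)).differentiable (by simp)

theorem contDiff_rep_entry (a : ℕ) (i j : Fin (a + 1)) (k : Fin 3) {n : WithTop ℕ∞} :
    ContDiff ℝ n fun g : Fin 3 → ℍ[ℝ] => rep a (g k) i j :=
  ((entryL a i j).contDiff.comp ((rep_contDiff a).comp (contDiff_apply ℝ ℍ[ℝ] k)))

theorem pfun_contDiff (x : Pnt) {n : WithTop ℕ∞} : ContDiff ℝ n (pfun x) := by
  refine contDiff_const.mul (ContDiff.sum fun m _ => contDiff_const.mul ?_)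
  exact contDiff_prod fun k _ => contDiff_rep_entry _ _ _ k

theorem pfun_differentiable (x : Pnt) : Differentiable ℝ (pfun x) :=
  (pfun_contDiff x (n := 1)).differentiable (by simp)

/-- A unit quaternion acting on all slots fixes the invariant tensor. -/
theorem sum_inv_prod_rep {t : Lbl} (ht : LblOK t) {h : ℍ[ℝ]} (hh : ‖h‖ = 1) (j : MIdx t) :
    ∑ n, inv t n * ∏ k, rep (t k) h (n k) (j k) = inv t j := by
  have e := inv_invariant ht (star h) j
  rw [norm_star, hh, Complex.ofReal_one, one_pow, one_mul] at e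
  have e' := congrArg star e
  rw [inv_real, star_sum] at e'
  rw [← e']
  refine sum_congr rfl fun n _ => ?_
  simp only [rep_star, conjTranspose_apply, Complex.star_def, map_mul, map_prod, Complex.conj_conj]
  rw [← Complex.star_def, inv_real, mul_comm]

theorem pfun_mul_left (x : Pnt) {h : ℍ[ℝ]} (hh : ‖h‖ = 1) (g : Fin 3 → ℍ[ℝ]) :
    pfun x (fun k => h * g k) = pfun x g := by
  have e : ∀ n : MIdx (lab x), ∏ k, rep (lab x k) (h * g k) (n k) (x.2 k) =
      ∑ j : MIdx (lab x),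
        (∏ k, rep (lab x k) h (n k) (j k)) * ∏ k, rep (lab x k) (g k) (j k) (x.2 k) := fun n => by
    simp only [rep_mul, Matrix.mul_apply]
    rw [Fintype.prod_sum]
    exact sum_congr rfl fun j _ => prod_mul_distrib
  unfold pfun
  congr 1
  simp only [e, mul_sum, ← mul_assoc]
  rw [sum_comm]
  refine sum_congr rfl fun j _ => ?_
  rw [← sum_mul, sum_inv_prod_rep x.1.2 hh]

theorem pfun_smul (x : Pnt) (k : Fin 3) (r : ℝ) (g : Fin 3 → ℍ[ℝ]) :
    pfun x (Function.update g k (r • g k)) = (r : ℂ) ^ lab x k * pfun x g := by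
  unfold pfun
  rw [mul_left_comm ((r : ℂ) ^ lab x k), mul_sum univ _ ((r : ℂ) ^ lab x k)]
  congr 1
  refine sum_congr rfl fun n _ => ?_
  rw [mul_left_comm]
  congr 1
  rw [← mul_prod_erase univ _ (mem_univ k), ← mul_prod_erase univ _ (mem_univ k),
    Function.update_self, rep_smul, Matrix.smul_apply, smul_eq_mul, mul_assoc]
  congr 2
  exact prod_congr rfl fun i hi => by rw [Function.update_of_ne (mem_erase.1 hi).1]

theorem col_norm_sq_le {a : ℕ} (R : Matrix (Fin (a + 1)) (Fin (a + 1)) ℂ) (i : Fin (a + 1)) :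
    ∑ j, ‖R j i‖ ^ 2 ≤ ‖R‖ ^ 2 := by
  have h := R.l2_opNorm_mulVec (EuclideanSpace.single i (1 : ℂ))
  rw [PiLp.norm_single, norm_one, mul_one] at h
  refine le_trans (le_of_eq ?_) (pow_le_pow_left₀ (norm_nonneg _) h 2)
  rw [EuclideanSpace.norm_sq_eq]
  refine sum_congr rfl fun j _ => ?_
  congr 2
  simp

theorem pfun_norm_le (x : Pnt) (g : Fin 3 → ℍ[ℝ]) :
    ‖pfun x g‖ ≤ (∏ k, ((lab x k : ℝ) + 1)) * ∏ k, ‖g k‖ ^ lab x k := by
  have h1 : (1 : ℝ) ≤ ∏ k, ((lab x k : ℝ) + 1) := one_le_prod fun k => by simp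
  have hs : ‖∑ n : MIdx (lab x), inv (lab x) n * ∏ k, rep (lab x k) (g k) (n k) (x.2 k)‖ ≤
      ∏ k, ‖g k‖ ^ lab x k := by
    refine (norm_sum_le _ _).trans ?_
    simp only [norm_mul, norm_prod]
    refine (Real.sum_mul_le_sqrt_mul_sqrt _ _ _).trans ?_
    rw [inv_norm x.1.2, Real.sqrt_one, one_mul, Real.sqrt_le_left (by positivity)]
    calc ∑ n : MIdx (lab x), (∏ k, ‖rep (lab x k) (g k) (n k) (x.2 k)‖) ^ 2
        = ∏ k, ∑ j, ‖rep (lab x k) (g k) j (x.2 k)‖ ^ 2 := by
          simp only [← prod_pow, prod_univ_sum, Fintype.piFinset_univ]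
      _ ≤ ∏ k, ‖rep (lab x k) (g k)‖ ^ 2 :=
          prod_le_prod (fun k _ => by positivity) fun k _ => col_norm_sq_le _ _
      _ ≤ (∏ k, ‖g k‖ ^ lab x k) ^ 2 := by
          rw [← prod_pow]
          exact prod_le_prod (fun k _ => by positivity) fun k _ =>
            pow_le_pow_left₀ (norm_nonneg _) (norm_rep_le _ _) 2
  rw [pfun, norm_mul, Complex.norm_real, Real.norm_of_nonneg (Real.sqrt_nonneg _)]
  refine mul_le_mul ?_ hs (norm_nonneg _) (by linarith)
  rw [Real.sqrt_le_left (by linarith)]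
  exact le_self_pow₀ h1 two_ne_zero

theorem star_pfun (x : Pnt) (g : Fin 3 → ℍ[ℝ]) :
    star (pfun x g) = ∑ j : MIdx (lab x),
      pfun ⟨x.1, j⟩ g * ∏ k, conjJ (lab x k) (j k) (x.2 k) := by
  have hj : ‖imUnit 1‖ = 1 := by
    rw [← sq_eq_sq₀ (norm_nonneg _) zero_le_one, sq, ← Quaternion.normSq_eq_norm_mul_self,
      Quaternion.normSq_def', show imUnit 1 = ⟨0, 0, 1, 0⟩ from rfl]
    norm_num
  have hr : ∀ k, rep (lab x k) (g k) * conjJ (lab x k) =
      conjJ (lab x k) * (rep (lab x k) (g k)).map star := fun k => (rep_real _ _).symm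
  have key : ∀ n : MIdx (lab x), ∑ j : MIdx (lab x),
      (∏ k, rep (lab x k) (g k) (n k) (j k)) * ∏ k, conjJ (lab x k) (j k) (x.2 k) =
      ∑ j : MIdx (lab x), (∏ k, conjJ (lab x k) (n k) (j k)) *
        ∏ k, star (rep (lab x k) (g k) (j k) (x.2 k)) := fun n => by
    have e := Finset.prod_congr (s₁ := (univ : Finset (Fin 3))) rfl fun k _ =>
      congrFun (congrFun (hr k) (n k)) (x.2 k)
    simp only [Matrix.mul_apply, Matrix.map_apply] at e
    rw [Fintype.prod_sum, Fintype.prod_sum] at e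
    simpa only [prod_mul_distrib] using e
  have hL : ∑ j : MIdx (lab x), pfun ⟨x.1, j⟩ g * ∏ k, conjJ (lab x k) (j k) (x.2 k) =
      (Real.sqrt (∏ k, ((lab x k : ℝ) + 1)) : ℂ) * ∑ n : MIdx (lab x), inv (lab x) n *
        ∑ j : MIdx (lab x),
          (∏ k, rep (lab x k) (g k) (n k) (j k)) * ∏ k, conjJ (lab x k) (j k) (x.2 k) := by
    simp only [pfun, lab, mul_sum, sum_mul, mul_assoc]
    rw [sum_comm]
  rw [hL, pfun, star_mul', Complex.star_def, Complex.conj_ofReal, ← Complex.star_def, star_sum]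
  congr 1
  simp only [key, mul_sum]
  rw [sum_comm]
  refine sum_congr rfl fun j _ => ?_
  rw [sum_congr rfl fun n _ => (mul_assoc _ _ _).symm, ← sum_mul, star_mul', inv_real]
  rw [show (∑ n : MIdx (lab x), inv (lab x) n * ∏ k, conjJ (lab x k) (n k) (j k)) = inv (lab x) j
    from sum_inv_prod_rep x.1.2 hj j]
  simp only [Complex.star_def, map_prod]

/-- The complex conjugate of a combination. -/
theorem pfun_conj {K : ℕ} (y : PntK K) (g : Fin 3 → ℍ[ℝ]) :
    star (pfun y.out g) = ∑ x : PntK K, pfun x.out g * thetaMat K x y := by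
  obtain ⟨t, m⟩ := y
  rw [star_pfun, Fintype.sum_sigma, Fintype.sum_eq_single t]
  · refine sum_congr rfl fun j _ => ?_
    rw [thetaMat, dif_pos rfl]
    rfl
  · intro t' ht'
    refine sum_eq_zero fun j _ => ?_
    rw [thetaMat, dif_neg ht', mul_zero]

/-- The derivative in one slot, as a linear expression in the derivative of `rep`. -/
theorem fderiv_pfun_single (x : Pnt) (s : Fin 3) (g : Fin 3 → ℍ[ℝ]) (w : ℍ[ℝ]) :
    fderiv ℝ (pfun x) g (Pi.single s w) = (Real.sqrt (∏ k, ((lab x k : ℝ) + 1)) : ℂ) *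
      ∑ n : MIdx (lab x), inv (lab x) n * (fderiv ℝ (rep (lab x s)) (g s) w (n s) (x.2 s) *
        ∏ k ∈ univ.erase s, rep (lab x k) (g k) (n k) (x.2 k)) := by
  have hline : HasDerivAt (fun t : ℝ => pfun x (g + t • (Pi.single s w : Fin 3 → ℍ[ℝ])))
      ((Real.sqrt (∏ k, ((lab x k : ℝ) + 1)) : ℂ) *
        ∑ n : MIdx (lab x), inv (lab x) n * (fderiv ℝ (rep (lab x s)) (g s) w (n s) (x.2 s) *
          ∏ k ∈ univ.erase s, rep (lab x k) (g k) (n k) (x.2 k))) 0 := by
    have hfun : (fun t : ℝ => pfun x (g + t • (Pi.single s w : Fin 3 → ℍ[ℝ]))) = fun t : ℝ =>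
        (Real.sqrt (∏ k, ((lab x k : ℝ) + 1)) : ℂ) *
          ∑ n : MIdx (lab x), inv (lab x) n * (rep (lab x s) (g s + t • w) (n s) (x.2 s) *
            ∏ k ∈ univ.erase s, rep (lab x k) (g k) (n k) (x.2 k)) := by
      funext t
      unfold pfun
      congr 1
      refine sum_congr rfl fun n _ => ?_
      congr 1
      rw [← mul_prod_erase univ _ (mem_univ s)]
      congr 1
      · simp
      · exact prod_congr rfl fun k hk => by simp [(mem_erase.1 hk).1]
    rw [hfun]
    refine (HasDerivAt.fun_sum fun n _ => ((HasDerivAt.mul_const ?_ _).const_mul _)).const_mul _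
    have hc : HasDerivAt (fun t : ℝ => g s + t • w) w 0 := by
      simpa using ((hasDerivAt_id (0 : ℝ)).smul_const w).const_add (g s)
    have hd := ((rep_differentiable (lab x s)) (g s + (0 : ℝ) • w)).hasFDerivAt.comp_hasDerivAt 0 hc
    rw [zero_smul, _root_.add_zero] at hd
    exact (entryL _ (n s) (x.2 s)).hasFDerivAt.comp_hasDerivAt (0 : ℝ) hd
  have h2 := (pfun_differentiable x g).hasFDerivAt.hasLineDerivAt (Pi.single s w : Fin 3 → ℍ[ℝ])
  exact h2.unique hline

/-- Euler's relation in each slot. -/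
theorem pfun_deriv_radial (x : Pnt) (k : Fin 3) (g : Fin 3 → ℍ[ℝ]) :
    fderiv ℝ (pfun x) g (Pi.single k (g k)) = (lab x k : ℂ) * pfun x g := by
  rw [fderiv_pfun_single, fderiv_rep_self]
  unfold pfun
  rw [mul_left_comm ((lab x k : ℂ)), mul_sum univ _ ((lab x k : ℂ))]
  congr 1
  refine sum_congr rfl fun n _ => ?_
  rw [mul_left_comm ((lab x k : ℂ)), ← mul_prod_erase univ _ (mem_univ k), Matrix.smul_apply,
    smul_eq_mul, mul_assoc]

/-- An entry of `rep` by numbers (zero out of range). -/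
def repN (a : ℕ) (g : ℍ[ℝ]) (i j : ℕ) : ℂ :=
  if h : i < a + 1 ∧ j < a + 1 then rep a g ⟨i, h.1⟩ ⟨j, h.2⟩ else 0

theorem repN_val (a : ℕ) (g : ℍ[ℝ]) (i j : Fin (a + 1)) : repN a g i j = rep a g i j := by
  rw [repN, dif_pos ⟨i.2, j.2⟩]

theorem prod_three (G : Fin 3) (F : Fin 3 → ℂ) : ∏ k, F k = F G * (F (G + 1) * F (G + 2)) := by
  fin_cases G <;> simp [Fin.prod_univ_three] <;> ring

theorem fin_three_cases (G k : Fin 3) : k = G ∨ k = G + 1 ∨ k = G + 2 := by
  revert G k; decide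

theorem sqrt_prod_three (G : Fin 3) (t : Lbl) :
    (Real.sqrt (∏ k, ((t k : ℝ) + 1)) : ℂ) =
      (Real.sqrt (((t (G + 1) : ℝ) + 1) * ((t (G + 2) : ℝ) + 1)) : ℂ) *
        (Real.sqrt ((t G : ℝ) + 1) : ℂ) := by
  rw [← Complex.ofReal_mul, ← Real.sqrt_mul (by positivity)]
  congr 2
  fin_cases G <;> simp [Fin.prod_univ_three] <;> ring

/-- With the identity in the slot `G`, a point is a coupled pair of the two other slots. -/
theorem sum_inv_coup (x : Pnt) (G : Fin 3)
    (R : ∀ k, Matrix (Fin (lab x k + 1)) (Fin (lab x k + 1)) ℂ) (hG : R G = 1) :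
    (Real.sqrt (∏ k, ((lab x k : ℝ) + 1)) : ℂ) *
        ∑ n : MIdx (lab x), inv (lab x) n * ∏ k, R k (n k) (x.2 k) =
      (Real.sqrt (((lab x (G + 1) : ℝ) + 1) * ((lab x (G + 2) : ℝ) + 1)) : ℂ) *
        ∑ v : Fin (lab x (G + 1) + 1) × Fin (lab x (G + 2) + 1),
          coupN (lab x) G v.1 v.2 (idx x G) *
            (R (G + 1) v.1 (x.2 (G + 1)) * R (G + 2) v.2 (x.2 (G + 2))) := by
  rw [sqrt_prod_three G (lab x), mul_assoc]
  congr 1
  have hc : ∀ v : Fin (lab x (G + 1) + 1) × Fin (lab x (G + 2) + 1),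
      coupN (lab x) G v.1 v.2 (idx x G) = (Real.sqrt ((lab x G : ℝ) + 1) : ℂ) *
        ∑ m : MIdx (lab x), if m G = x.2 G ∧ m (G + 1) = v.1 ∧ m (G + 2) = v.2
          then inv (lab x) m else 0 := fun v => by
    rw [coupN, dif_pos ⟨v.1.2, v.2.2, (x.2 G).2⟩]
    rfl
  simp only [hc, mul_assoc, ← mul_sum]
  congr 1
  simp only [sum_mul]
  rw [sum_comm]
  refine sum_congr rfl fun n _ => ?_
  rw [prod_three G (fun k => R k (n k) (x.2 k)), hG, Matrix.one_apply]
  simp only [ite_mul, zero_mul]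
  by_cases h : n G = x.2 G
  · rw [if_pos h, one_mul, Fintype.sum_eq_single (n (G + 1), n (G + 2))]
    · rw [if_pos ⟨h, rfl, rfl⟩]
    · exact fun v hv => if_neg fun h' => hv (Prod.ext h'.2.1.symm h'.2.2.symm)
  · rw [if_neg h, mul_zero]
    exact (sum_eq_zero fun v _ => if_neg fun h' => h h'.1).symm

/-- The pair of columns seen by the block of `y`. -/
def colPair (G : Fin 3) (g : Fin 3 → ℍ[ℝ]) (y : Pnt) (p : ℕ × ℕ)
    (v : Fin (p.1 + 1) × Fin (p.2 + 1)) : ℂ :=
  repN p.1 (g (G + 1)) v.1 (idx y (G + 1)) * repN p.2 (g (G + 2)) v.2 (idx y (G + 2))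

/-- A point with `1` in the slot `G`, in terms of the block of `y`. -/
theorem pfun_eq_colPair {G : Fin 3} {g : Fin 3 → ℍ[ℝ]} (hG : g G = 1) {x y : Pnt}
    (h : SameBlk G x y) {p : ℕ × ℕ} (hp : blkLab G x = p) :
    pfun x g = (Real.sqrt (((p.1 : ℝ) + 1) * ((p.2 : ℝ) + 1)) : ℂ) *
      ∑ v : Fin (p.1 + 1) × Fin (p.2 + 1),
        coupN (lab x) G v.1 v.2 (idx x G) * colPair G g y p v := by
  subst hp
  rw [pfun, sum_inv_coup x G (fun k => rep (lab x k) (g k)) (by rw [hG, rep_one])]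
  congr 1
  refine sum_congr rfl fun v _ => ?_
  rw [colPair, ← h.2.2.1, ← h.2.2.2, repN_val, repN_val]

/-- Slot and index of a derivative direction of the gauge `G`. -/
def dirSlot (G : Fin 3) : Bool → Fin 3
  | false => G + 1
  | true => G + 2

/-- The derivative along `g_k ↦ -(e_i / 2) g_k` in a slot other than `G`, where the slot `G` holds
`1`, acts on coefficients by the block operator `opX`. -/
theorem pfun_deriv {K : ℕ} (G : Fin 3) (α : Bool × Fin 3) (y : Pnt)
    (hy : lab y (G + 1) + lab y (G + 2) ≤ K) (g : Fin 3 → ℍ[ℝ]) (hG : g G = 1) :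
    fderiv ℝ (pfun y) g
        (Pi.single (dirSlot G α.1) (-(2⁻¹ : ℝ) • (imUnit α.2 * g (dirSlot G α.1)))) =
      ∑ x : PntK K, pfun x.out g * gaugeEntry G (fun p => opX p α) x.out y := by
  classical
  have hyy : SameBlk G y y := ⟨rfl, rfl, rfl, rfl⟩
  set M' : ∀ p, BlkMat p := fun p =>
    Matrix.of fun u v => coupN (lab y) G u.1 u.2 (idx y G) * colPair G g y p v
  set κ : ℂ :=
    (Real.sqrt (((lab y (G + 1) : ℝ) + 1) * ((lab y (G + 2) : ℝ) + 1)) : ℂ)
  have hunit : ∑ u : Fin (lab y (G + 1) + 1) × Fin (lab y (G + 2) + 1),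
      star (coupN (lab y) G u.1 u.2 (idx y G)) * coupN (lab y) G u.1 u.2 (idx y G) = 1 := by
    have h := gaugeEntry_one (G := G) y y
    simpa [gaugeEntry, hyy, Matrix.one_apply] using h
  have hrow : ∀ x : Pnt, pfun x g * gaugeEntry G (fun p => opX p α) x y =
      κ * (gaugeEntry G M' y x * gaugeEntry G (fun p => opX p α) x y) := by
    intro x
    by_cases hxy : SameBlk G x y
    · have hyx : SameBlk G y x := ⟨hxy.1.symm, hxy.2.1.symm, hxy.2.2.1.symm, hxy.2.2.2.symm⟩
      rw [pfun_eq_colPair hG hxy (p := blkLab G y) (Prod.ext hxy.1 hxy.2.1), mul_assoc]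
      congr 2
      rw [gaugeEntry, if_pos hyx, sum_comm]
      refine sum_congr rfl fun v _ => ?_
      simp only [M', Matrix.of_apply]
      rw [← sum_mul, sum_congr rfl fun u _ => (mul_assoc _ _ _).symm, ← sum_mul, hunit, one_mul,
        mul_comm]
    · rw [show gaugeEntry G (fun p => opX p α) x y = 0 from if_neg hxy, mul_zero, mul_zero,
        mul_zero]
  simp only [hrow, ← mul_sum]
  rw [gaugeEntry_mul (M := M') (N := fun p => opX p α) y y hy, gaugeEntry, if_pos hyy]
  -- the left side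
  set s := dirSlot G α.1 with hs
  have hsG : s ≠ G := by
    rw [hs]
    cases α.1 <;> exact fun e => by simp [dirSlot] at e
  set R : ∀ k, Matrix (Fin (lab y k + 1)) (Fin (lab y k + 1)) ℂ := fun k =>
    if k = s then -(gen (lab y k) α.2 * rep (lab y k) (g k)) else rep (lab y k) (g k)
  have hL : fderiv ℝ (pfun y) g (Pi.single s (-(2⁻¹ : ℝ) • (imUnit α.2 * g s))) =
      (Real.sqrt (∏ k, ((lab y k : ℝ) + 1)) : ℂ) *
        ∑ n : MIdx (lab y), inv (lab y) n * ∏ k, R k (n k) (y.2 k) := by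
    rw [fderiv_pfun_single]
    congr 1
    refine sum_congr rfl fun n _ => ?_
    congr 1
    rw [← mul_prod_erase univ _ (mem_univ s)]
    congr 1
    · simp only [R, if_pos, map_smul, fderiv_rep_imUnit_mul, Matrix.smul_apply, Matrix.neg_apply,
        Complex.real_smul, smul_eq_mul]
      push_cast
      ring
    · exact prod_congr rfl fun k hk => by simp [R, (mem_erase.1 hk).1]
  rw [hL, sum_inv_coup y G R (by simp [R, hsG.symm, hG, rep_one])]
  congr 1
  rw [show (∑ u : Fin (lab y (G + 1) + 1) × Fin (lab y (G + 2) + 1),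
      ∑ v : Fin (lab y (G + 1) + 1) × Fin (lab y (G + 2) + 1),
        star (coupN (lab y) G u.1 u.2 (idx y G)) * (M' (blkLab G y) * opX (blkLab G y) α) u v *
          coupN (lab y) G v.1 v.2 (idx y G)) =
      ∑ v : Fin (lab y (G + 1) + 1) × Fin (lab y (G + 2) + 1),
        coupN (lab y) G v.1 v.2 (idx y G) *
          ∑ w, colPair G g y (blkLab G y) w * opX (blkLab G y) α w v from ?_]
  · refine sum_congr rfl fun v _ => ?_
    congr 1
    rw [Fintype.sum_prod_type]
    obtain ⟨b, k⟩ := α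
    cases b <;>
      simp [R, s, dirSlot, opX, opS, opT, colPair, repN_val, Matrix.mul_apply, Matrix.one_apply,
        Finset.mul_sum, mul_comm, mul_left_comm, mul_assoc]
  · rw [sum_comm]
    refine sum_congr rfl fun v _ => ?_
    simp only [M', Matrix.mul_apply, Matrix.of_apply, mul_assoc, ← mul_sum]
    simp only [← mul_assoc (star _)]
    rw [← sum_mul, hunit, one_mul, mul_comm]

/-- Tangential derivatives preserve vanishing on the unit sphere. -/
theorem vanish_mul_gen (S : Finset ℕ) (M : ∀ a, Matrix (Fin (a + 1)) (Fin (a + 1)) ℂ)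
    (h : ∀ q : ℍ[ℝ], ‖q‖ = 1 → ∑ a ∈ S, (M a * rep a q).trace = 0) (k : Fin 3)
    (q : ℍ[ℝ]) (hq : ‖q‖ = 1) : ∑ a ∈ S, (M a * gen a k * rep a q).trace = 0 := by
  set γ : ℝ → ℍ[ℝ] := fun t => Real.cos t • q + Real.sin t • (imUnit k * q)
  have hγ : HasDerivAt γ (imUnit k * q) 0 := by
    have h1 := ((Real.hasDerivAt_cos 0).smul_const q).add
      ((Real.hasDerivAt_sin 0).smul_const (imUnit k * q))
    simp only [Real.sin_zero, neg_zero, zero_smul, Real.cos_zero, one_smul, _root_.zero_add] at h1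
    exact h1
  have hunit : ∀ t, ‖γ t‖ = 1 := fun t => by
    have e : γ t = ((Real.cos t : ℍ[ℝ]) + Real.sin t • imUnit k) * q := by
      rw [add_mul, Quaternion.coe_mul_eq_smul, smul_mul_assoc]
    rw [e, norm_mul, hq, mul_one, ← sq_eq_sq₀ (norm_nonneg _) zero_le_one, sq,
      ← Quaternion.normSq_eq_norm_mul_self, one_pow, Quaternion.normSq_def']
    have hp : (imUnit k).re = 0 ∧
        (imUnit k).imI ^ 2 + (imUnit k).imJ ^ 2 + (imUnit k).imK ^ 2 = 1 := by
      match k with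
      | 0 => exact ⟨rfl, by rw [show imUnit 0 = ⟨0, 1, 0, 0⟩ from rfl]; norm_num⟩
      | 1 => exact ⟨rfl, by rw [show imUnit 1 = ⟨0, 0, 1, 0⟩ from rfl]; norm_num⟩
      | 2 => exact ⟨rfl, by rw [show imUnit 2 = ⟨0, 0, 0, 1⟩ from rfl]; norm_num⟩
    simp only [Quaternion.re_add, Quaternion.imI_add, Quaternion.imJ_add, Quaternion.imK_add,
      Quaternion.re_smul, Quaternion.imI_smul, Quaternion.imJ_smul, Quaternion.imK_smul,
      Quaternion.re_coe, Quaternion.imI_coe, Quaternion.imJ_coe, Quaternion.imK_coe, smul_eq_mul]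
    linear_combination (Real.sin t) ^ 2 * hp.2 + Real.sin_sq_add_cos_sq t +
      (2 * Real.cos t * Real.sin t + Real.sin t ^ 2 * (imUnit k).re) * hp.1
  have hF : HasDerivAt (fun t => ∑ a ∈ S, (M a * rep a (γ t)).trace)
      (∑ a ∈ S, (2 : ℂ) * (M a * gen a k * rep a q).trace) 0 := by
    refine HasDerivAt.fun_sum fun a _ => ?_
    have hγ0 : γ 0 = q := by simp [γ]
    have hd := ((rep_differentiable a) (γ 0)).hasFDerivAt.comp_hasDerivAt 0 hγ
    rw [hγ0, fderiv_rep_imUnit_mul] at hd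
    let T : Matrix (Fin (a + 1)) (Fin (a + 1)) ℂ →L[ℝ] ℂ := LinearMap.toContinuousLinearMap
      (((Matrix.traceLinearMap (Fin (a + 1)) ℂ ℂ).comp
        (LinearMap.mulLeft ℂ (M a))).restrictScalars ℝ)
    have := T.hasFDerivAt.comp_hasDerivAt (0 : ℝ) hd
    have hTv : T ((2 : ℂ) • (gen a k * rep a q)) = (2 : ℂ) * (M a * gen a k * rep a q).trace := by
      change (M a * ((2 : ℂ) • (gen a k * rep a q))).trace = _
      rw [Matrix.mul_smul, Matrix.trace_smul, ← Matrix.mul_assoc, smul_eq_mul]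
    rw [hTv] at this
    exact this
  have h0 : (fun t => ∑ a ∈ S, (M a * rep a (γ t)).trace) = fun _ => 0 :=
    funext fun t => h _ (hunit t)
  rw [h0] at hF
  have := hF.unique (hasDerivAt_const (0 : ℝ) (0 : ℂ))
  rw [← mul_sum] at this
  simpa using this

/-- Different degrees are independent on the unit sphere. -/
theorem rep_independent_all (S : Finset ℕ) :
    ∀ M : ∀ a, Matrix (Fin (a + 1)) (Fin (a + 1)) ℂ,
      (∀ q : ℍ[ℝ], ‖q‖ = 1 → ∑ a ∈ S, (M a * rep a q).trace = 0) → ∀ a ∈ S, M a = 0 := by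
  induction S using Finset.induction_on with
  | empty => simp
  | insert b S hb ih =>
    intro M h
    have hcas : ∀ q : ℍ[ℝ], ‖q‖ = 1 →
        ∑ a ∈ insert b S, (cas a : ℂ) * (M a * rep a q).trace = 0 := by
      intro q hq
      have hk : ∀ k, ∑ a ∈ insert b S, (M a * gen a k * gen a k * rep a q).trace = 0 := fun k =>
        vanish_mul_gen _ (fun a => M a * gen a k) (fun q hq => vanish_mul_gen _ M h k q hq) k q hq
      have hsum := sum_eq_zero (s := (univ : Finset (Fin 3))) fun k _ => hk k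
      rw [sum_comm] at hsum
      rw [← neg_eq_zero, ← sum_neg_distrib, ← hsum]
      refine sum_congr rfl fun a _ => ?_
      rw [← Matrix.trace_sum, ← Matrix.sum_mul]
      simp only [Matrix.mul_assoc (M a)]
      rw [← Matrix.mul_sum, gen_casimir, Matrix.mul_smul, Matrix.mul_one, Matrix.smul_mul,
        Matrix.trace_smul, smul_eq_mul, neg_mul]
    have hlow : ∀ a ∈ S, M a = 0 := by
      intro a ha
      have h' := ih (fun a => ((cas a : ℂ) - cas b) • M a) (fun q hq => by
        have e := sub_eq_zero.2 ((hcas q hq).trans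
          (mul_eq_zero_of_right (cas b : ℂ) (h q hq)).symm)
        rw [mul_sum, ← sum_sub_distrib, sum_insert hb, sub_self, _root_.zero_add] at e
        rw [← e]
        exact sum_congr rfl fun a _ => by
          rw [Matrix.smul_mul, Matrix.trace_smul, smul_eq_mul, sub_mul]) a ha
      refine (smul_eq_zero.1 h').resolve_left (sub_ne_zero.2 fun e => hb ?_)
      have e' : cas a = cas b := by exact_mod_cast e
      have : (a : ℝ) = b := by
        unfold cas at e'
        nlinarith [(Nat.cast_nonneg a : (0 : ℝ) ≤ a), (Nat.cast_nonneg b : (0 : ℝ) ≤ b)]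
      exact (Nat.cast_inj.1 this : a = b) ▸ ha
    refine (Finset.forall_mem_insert _ _ _).2 ⟨rep_independent b (M b) fun q hq => ?_, hlow⟩
    have := h q hq
    rwa [sum_insert hb, sum_eq_zero (fun a ha => by rw [hlow a ha, Matrix.zero_mul,
      Matrix.trace_zero]), _root_.add_zero] at this

/-- An index of an entry of some `rep a`. -/
abbrev EIdx := (a : ℕ) × (Fin (a + 1) × Fin (a + 1))

/-- The entry functions. -/
def entryFun (i : EIdx) (q : ℍ[ℝ]) : ℂ := rep i.1 q i.2.1 i.2.2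

theorem entryFun_independent (s : Finset EIdx) (c : EIdx → ℂ)
    (h : ∀ q : ℍ[ℝ], ‖q‖ = 1 → ∑ i ∈ s, c i * entryFun i q = 0) : ∀ i ∈ s, c i = 0 := by
  classical
  intro i hi
  have hM := rep_independent_all (s.image Sigma.fst)
    (fun a => Matrix.of fun l m => if (⟨a, (m, l)⟩ : EIdx) ∈ s then c ⟨a, (m, l)⟩ else 0) (fun q hq => by
      refine Eq.trans ?_ (h q hq)
      rw [← sum_fiberwise_of_maps_to (g := Sigma.fst) (t := s.image Sigma.fst)
        fun j hj => mem_image_of_mem _ hj]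
      refine sum_congr rfl fun a _ => ?_
      simp only [Matrix.trace, Matrix.diag, Matrix.mul_apply, Matrix.of_apply]
      rw [← Fintype.sum_prod_type']
      simp only [ite_mul, zero_mul]
      rw [← sum_filter]
      refine sum_bij' (fun v _ => (⟨a, (v.2, v.1)⟩ : EIdx))
        (fun j hj => ((Fin.cast (by rw [(mem_filter.1 hj).2]) j.2.2),
          (Fin.cast (by rw [(mem_filter.1 hj).2]) j.2.1))) ?_ ?_ ?_ ?_ ?_
      · intro v hv; exact mem_filter.2 ⟨(mem_filter.1 hv).2, rfl⟩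
      · rintro ⟨b, u⟩ hj
        obtain ⟨hj1, rfl⟩ := mem_filter.1 hj
        exact mem_filter.2 ⟨mem_univ _, by simpa using hj1⟩
      · intro v hv; simp
      · rintro ⟨b, u⟩ hj
        obtain ⟨hj1, rfl⟩ := mem_filter.1 hj
        simp
      · intro v hv; rfl)
    i.1 (mem_image_of_mem _ hi)
  have := congrFun (congrFun hM i.2.2) i.2.1
  simpa [hi] using this

theorem peel {ι : Type*} (S : Finset ι) (f : ι → EIdx) (d : ι → ℂ) (i : ι)
    (h : ∀ q : ℍ[ℝ], ‖q‖ = 1 → ∑ j ∈ S, entryFun (f j) q * d j = 0) :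
    ∑ j ∈ S.filter (fun j => f j = f i), d j = 0 := by
  classical
  by_cases hi : f i ∈ S.image f
  · refine entryFun_independent (S.image f)
      (fun a => ∑ j ∈ S.filter (fun j => f j = a), d j) (fun q hq => ?_) (f i) hi
    rw [← h q hq, ← sum_fiberwise_of_maps_to (g := f) (t := S.image f)
      fun j hj => mem_image_of_mem _ hj]
    refine sum_congr rfl fun a _ => ?_
    rw [sum_mul]
    refine sum_congr rfl fun j hj => ?_
    rw [(mem_filter.1 hj).2, mul_comm]
  · exact sum_eq_zero fun j hj => absurd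
      ((mem_filter.1 hj).2 ▸ mem_image_of_mem f (mem_filter.1 hj).1) hi

/-- Independence on the link. -/
theorem pfun_independent (s : Finset Pnt) (c : Pnt → ℂ) (G : Fin 3)
    (h : ∀ g : Fin 3 → ℍ[ℝ], g G = 1 → (∀ k, ‖g k‖ = 1) → ∑ x ∈ s, c x * pfun x g = 0) :
    ∀ x ∈ s, c x = 0 := by
  classical
  have hall : ∀ g : Fin 3 → ℍ[ℝ], (∀ k, ‖g k‖ = 1) → ∑ x ∈ s, c x * pfun x g = 0 := by
    intro g hg
    have hh : ‖star (g G)‖ = 1 := by rw [norm_star]; exact hg G
    rw [← h (fun k => star (g G) * g k) ?_ fun k => by rw [norm_mul, hh, hg, mul_one]]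
    · exact sum_congr rfl fun x _ => by rw [pfun_mul_left x hh]
    · rw [Quaternion.star_mul_self, Quaternion.normSq_eq_norm_mul_self, hg]
      simp
  let S : Finset ((x : Pnt) × MIdx (lab x)) := s.sigma fun _ => univ
  let J : ((x : Pnt) × MIdx (lab x)) → Fin 3 → EIdx := fun z k =>
    ⟨lab z.1 k, (z.2 k, z.1.2 k)⟩
  let C : ((x : Pnt) × MIdx (lab x)) → ℂ := fun z =>
    c z.1 * (Real.sqrt (∏ k, ((lab z.1 k : ℝ) + 1)) : ℂ) * inv (lab z.1) z.2
  have hzero : ∀ a b e : ℍ[ℝ], ‖a‖ = 1 → ‖b‖ = 1 → ‖e‖ = 1 →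
      ∑ z ∈ S, entryFun (J z 0) a * (entryFun (J z 1) b * (entryFun (J z 2) e * C z)) = 0 := by
    intro a b e ha hb he
    rw [← hall ![a, b, e] fun k => by fin_cases k <;> assumption, sum_sigma]
    refine sum_congr rfl fun x _ => ?_
    rw [pfun, mul_sum, mul_sum]
    refine sum_congr rfl fun n _ => ?_
    simp only [C, J, entryFun, Fin.prod_univ_three]
    simp only [Matrix.cons_val_zero, Matrix.cons_val_one, Matrix.cons_val]
    ring
  have hJ : Function.Injective J := by
    rintro ⟨⟨⟨t, ht⟩, m⟩, n⟩ ⟨⟨⟨t', ht'⟩, m'⟩, n'⟩ e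
    obtain rfl : t = t' := funext fun k => congrArg Sigma.fst (congrFun e k)
    have e' : ∀ k, (n k, m k) = (n' k, m' k) := fun k => by simpa [J] using congrFun e k
    obtain rfl : m = m' := funext fun k => (Prod.ext_iff.1 (e' k)).2
    obtain rfl : n = n' := funext fun k => (Prod.ext_iff.1 (e' k)).1
    rfl
  intro x hx
  by_contra hcx
  obtain ⟨m, hm⟩ : ∃ m, inv (lab x) m ≠ 0 := by
    by_contra hno
    rw [not_exists] at hno
    have := inv_norm x.1.2
    simp [fun m => not_not.1 (hno m)] at this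
  set z0 : (x : Pnt) × MIdx (lab x) := ⟨x, m⟩
  have h0 : ∀ b e : ℍ[ℝ], ‖b‖ = 1 → ‖e‖ = 1 →
      ∑ z ∈ S.filter (fun z => J z 0 = J z0 0),
        entryFun (J z 1) b * (entryFun (J z 2) e * C z) = 0 := fun b e hb he =>
    peel S (fun z => J z 0) _ z0 fun a ha => hzero a b e ha hb he
  have h1 : ∀ e : ℍ[ℝ], ‖e‖ = 1 →
      ∑ z ∈ (S.filter (fun z => J z 0 = J z0 0)).filter (fun z => J z 1 = J z0 1),
        entryFun (J z 2) e * C z = 0 := fun e he =>
    peel _ (fun z => J z 1) _ z0 fun b hb => h0 b e hb he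
  have h2 := peel _ (fun z => J z 2) C z0 h1
  rw [sum_eq_single z0] at h2
  · simp only [C, z0, mul_eq_zero, Complex.ofReal_eq_zero] at h2
    rcases h2 with (h2 | h2) | h2
    · exact hcx h2
    · exact absurd h2 (Real.sqrt_ne_zero'.2 (by positivity))
    · exact hm h2
  · intro z hz hne
    simp only [mem_filter] at hz
    exact absurd (hJ (funext fun k => by
      fin_cases k
      exacts [hz.1.1.2, hz.1.2, hz.2])) hne
  · intro hno
    exact absurd (by simp [S, z0, hx]) hno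

end Vale.Agent.P225.SU2
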