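import Vale.Agent.P225.SU2.Invariant
import Vale.Agent.P225.Group.Targets

/-!
P225, module C: points (triple, index vector), the three gauge block structures on coefficient
vectors, their truncations, and the link operators.
-/

noncomputable section

namespace Vale.Agent.P225.SU2

open Matrix Finset
open scoped ComplexOrder Kronecker Matrix.Norms.L2Operator

open scoped MatrixOrder in
theorem psd_factor {n 𝕜 : Type*} [RCLike 𝕜] [Fintype n] [DecidableEq n] {A : Matrix n n 𝕜}
    (h : A.PosSemidef) : ∃ B : Matrix n n 𝕜, A = Bᴴ * B :=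
  CStarAlgebra.nonneg_iff_eq_star_mul_self.mp h.nonneg

/-- A point: an admissible triple and an index vector. -/
abbrev Pnt := (t : {t : Lbl // LblOK t}) × MIdx t.1

/-- Points with labels at most `K`. -/
abbrev PntK (K : ℕ) :=
  (t : {t : Fin 3 → Fin (K + 1) // LblOK fun k => (t k : ℕ)}) × MIdx fun k => (t.1 k : ℕ)

/-- Forget the bound. -/
def PntK.out {K : ℕ} (x : PntK K) : Pnt := ⟨⟨fun k => (x.1.1 k : ℕ), x.1.2⟩, x.2⟩

/-- The labels of a point. -/
abbrev lab (x : Pnt) : Lbl := x.1.1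

/-- The index of a point in the slot `k`, as a number. -/
abbrev idx (x : Pnt) (k : Fin 3) : ℕ := x.2 k

/-- The coupling as a function of numbers (zero out of range). -/
def coupN (t : Lbl) (G : Fin 3) (p q l : ℕ) : ℂ :=
  if h : p < t (G + 1) + 1 ∧ q < t (G + 2) + 1 ∧ l < t G + 1 then
    coup t G (⟨p, h.1⟩, ⟨q, h.2.1⟩) ⟨l, h.2.2⟩ else 0

/-- Same block in the gauge `G`: the other two labels and indices agree. -/
def SameBlk (G : Fin 3) (x y : Pnt) : Prop :=
  lab x (G + 1) = lab y (G + 1) ∧ lab x (G + 2) = lab y (G + 2) ∧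
    idx x (G + 1) = idx y (G + 1) ∧ idx x (G + 2) = idx y (G + 2)

instance (G : Fin 3) (x y : Pnt) : Decidable (SameBlk G x y) := by unfold SameBlk; infer_instance

/-- The two frozen labels of a point. -/
abbrev blkLab (G : Fin 3) (x : Pnt) : ℕ × ℕ := (lab x (G + 1), lab x (G + 2))

/-- Matrix entry of a family of block operators in the point basis of the gauge `G`. -/
def gaugeEntry (G : Fin 3) (M : ∀ p, BlkMat p) (x y : Pnt) : ℂ :=
  if SameBlk G x y then
    ∑ u : Fin (lab x (G + 1) + 1) × Fin (lab x (G + 2) + 1),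
      ∑ v : Fin (lab x (G + 1) + 1) × Fin (lab x (G + 2) + 1),
        star (coupN (lab x) G u.1 u.2 (idx x G)) * M (blkLab G x) u v *
          coupN (lab y) G v.1 v.2 (idx y G)
  else 0

/-- The truncated operator. -/
def gaugeMat (K : ℕ) (G : Fin 3) (M : ∀ p, BlkMat p) : Matrix (PntK K) (PntK K) ℂ :=
  fun x y => gaugeEntry G M x.out y.out


theorem lblOK_iff (t : Lbl) (G : Fin 3) :
    LblOK t ↔ Even (t G + t (G + 1) + t (G + 2)) ∧ t G ≤ t (G + 1) + t (G + 2) ∧
      t (G + 1) ≤ t G + t (G + 2) ∧ t (G + 2) ≤ t G + t (G + 1) := by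
  unfold LblOK
  simp only [Nat.even_iff]
  fin_cases G <;> simp <;> omega

theorem fin3_cases (G k : Fin 3) : k = G ∨ k = G + 1 ∨ k = G + 2 := by
  fin_cases G <;> fin_cases k <;> simp

theorem fin3_sum {A : Type*} [AddCommMonoid A] (G : Fin 3) (f : Fin 3 → A) :
    ∑ k, f k = f G + f (G + 1) + f (G + 2) := by
  rw [Fin.sum_univ_three]
  fin_cases G <;> simp <;> abel

theorem fin3_prod {A : Type*} [CommMonoid A] (G : Fin 3) (f : Fin 3 → A) :
    ∏ k, f k = f G * f (G + 1) * f (G + 2) := by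
  exact fin3_sum (A := Additive A) G f

theorem Pnt.ext' {x y : Pnt} (h1 : ∀ k, lab x k = lab y k) (h2 : ∀ k, idx x k = idx y k) :
    x = y := by
  obtain ⟨⟨t, ht⟩, m⟩ := x
  obtain ⟨⟨u, hu⟩, n⟩ := y
  obtain rfl : t = u := funext h1
  congr 1
  funext k
  exact Fin.ext (h2 k)

theorem PntK.out_injective {K : ℕ} : Function.Injective (PntK.out : PntK K → Pnt) := by
  rintro ⟨⟨t, ht⟩, m⟩ ⟨⟨u, hu⟩, n⟩ h
  obtain rfl : t = u := funext fun k => Fin.ext (congrArg (fun x => lab x k) h)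
  congr 1
  funext k
  exact Fin.ext (congrArg (fun x => idx x k) h)

/-- The index of a point in a slot. -/
abbrev idF (x : Pnt) (G : Fin 3) : Fin (lab x G + 1) := x.2 G

/-- The coupling with the two frozen labels as parameters. -/
def cmat (G : Fin 3) (p : ℕ × ℕ) (t : Lbl) :
    Matrix (Fin (p.1 + 1) × Fin (p.2 + 1)) (Fin (t G + 1)) ℂ :=
  fun u l => coupN t G u.1 u.2 l

theorem cmat_self (G : Fin 3) (t : Lbl) : cmat G (t (G + 1), t (G + 2)) t = coup t G := by
  funext u l
  unfold cmat coupN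
  rw [dif_pos ⟨u.1.isLt, u.2.isLt, l.isLt⟩]

theorem SameBlk.refl (G : Fin 3) (x : Pnt) : SameBlk G x x := ⟨rfl, rfl, rfl, rfl⟩

theorem SameBlk.symm {G : Fin 3} {x y : Pnt} (h : SameBlk G x y) : SameBlk G y x :=
  ⟨h.1.symm, h.2.1.symm, h.2.2.1.symm, h.2.2.2.symm⟩

theorem SameBlk.trans {G : Fin 3} {x y z : Pnt} (h : SameBlk G x y) (h' : SameBlk G y z) :
    SameBlk G x z :=
  ⟨h.1.trans h'.1, h.2.1.trans h'.2.1, h.2.2.1.trans h'.2.2.1, h.2.2.2.trans h'.2.2.2⟩

theorem SameBlk.blkLab {G : Fin 3} {x y : Pnt} (h : SameBlk G x y) :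
    blkLab G y = blkLab G x :=
  Prod.ext h.1.symm h.2.1.symm

theorem gaugeEntry_of_same {G : Fin 3} {M : ∀ p, BlkMat p} {x y : Pnt} {p : ℕ × ℕ}
    (hp : blkLab G x = p) (h : SameBlk G x y) :
    gaugeEntry G M x y =
      ((cmat G p (lab x))ᴴ * M p * cmat G p (lab y)) (idF x G) (idF y G) := by
  subst hp
  rw [gaugeEntry, if_pos h, Finset.sum_comm, Matrix.mul_apply]
  refine Finset.sum_congr rfl fun v _ => ?_
  rw [Matrix.mul_apply, Finset.sum_mul]
  rfl

theorem gaugeEntry_of_not {G : Fin 3} {M : ∀ p, BlkMat p} {x y : Pnt} (h : ¬SameBlk G x y) :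
    gaugeEntry G M x y = 0 := if_neg h

theorem cmat_inner {G : Fin 3} {p : ℕ × ℕ} (x y : Pnt) (hx : blkLab G x = p)
    (hy : blkLab G y = p) :
    ((cmat G p (lab x))ᴴ * cmat G p (lab y)) (idF x G) (idF y G) =
      if lab x G = lab y G ∧ idx x G = idx y G then 1 else 0 := by
  obtain ⟨⟨t, ht⟩, m⟩ := x
  obtain ⟨⟨u, hu⟩, n⟩ := y
  dsimp only [blkLab, lab, idF, idx] at hx hy ⊢
  subst hx
  have h1 : t (G + 1) = u (G + 1) := (congrArg Prod.fst hy).symm
  have h2 : t (G + 2) = u (G + 2) := (congrArg Prod.snd hy).symm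
  by_cases hb : t G = u G
  · obtain rfl : t = u := funext fun k => by rcases fin3_cases G k with rfl | rfl | rfl <;> assumption
    rw [cmat_self, coup_isometry ht, Matrix.one_apply]
    simp [Fin.ext_iff]
  · rw [if_neg (fun h => hb h.1), Matrix.mul_apply, ← coup_orthogonal ht hu G h1 h2 hb (m G) (n G)]
    refine Finset.sum_congr rfl fun q _ => ?_
    rw [conjTranspose_apply]
    have e1 : cmat G (t (G + 1), t (G + 2)) t q (m G) = coup t G q (m G) := by rw [cmat_self]
    have e2 : cmat G (t (G + 1), t (G + 2)) u q (n G) =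
        coup u G (Fin.cast (by rw [h1]) q.1, Fin.cast (by rw [h2]) q.2) (n G) := by
      have hq1 : (q.1 : ℕ) < u (G + 1) + 1 := h1 ▸ q.1.isLt
      have hq2 : (q.2 : ℕ) < u (G + 2) + 1 := h2 ▸ q.2.isLt
      rw [cmat, coupN, dif_pos ⟨hq1, hq2, (n G).isLt⟩]
      rfl
    rw [e1, e2]

/-- The columns of a complete block: the admissible third labels with their indices. -/
abbrev Col (p : ℕ × ℕ) :=
  (i : Fin (min p.1 p.2 + 1)) × Fin (max p.1 p.2 - min p.1 p.2 + 2 * i + 1)

theorem card_col (p : ℕ × ℕ) :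
    Fintype.card (Fin (p.1 + 1) × Fin (p.2 + 1)) = Fintype.card (Col p) := by
  have key : ∀ d m : ℕ, ∑ i : Fin (m + 1), (d + 2 * (i : ℕ) + 1) = (m + 1) * (d + m + 1) := by
    intro d m
    induction m with
    | zero => simp
    | succ m ih =>
      rw [Fin.sum_univ_castSucc]
      simp only [Fin.val_castSucc, Fin.val_last, ih]
      ring
  rw [Fintype.card_prod, Fintype.card_fin, Fintype.card_fin, Fintype.card_sigma]
  simp only [Fintype.card_fin]
  rw [key, Nat.sub_add_cancel (min_le_max)]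
  rcases le_total p.1 p.2 with h | h <;> simp [h, Nat.mul_comm]

/-- The label triple of a column. -/
def colLbl (G : Fin 3) (p : ℕ × ℕ) (i : Fin (min p.1 p.2 + 1)) : Lbl :=
  fun k => if k = G then max p.1 p.2 - min p.1 p.2 + 2 * i else if k = G + 1 then p.1 else p.2

theorem colLbl_G (G : Fin 3) (p : ℕ × ℕ) (i : Fin (min p.1 p.2 + 1)) :
    colLbl G p i G = max p.1 p.2 - min p.1 p.2 + 2 * i := if_pos rfl

theorem colLbl_one (G : Fin 3) (p : ℕ × ℕ) (i : Fin (min p.1 p.2 + 1)) :
    colLbl G p i (G + 1) = p.1 := by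
  simp [colLbl]

theorem colLbl_two (G : Fin 3) (p : ℕ × ℕ) (i : Fin (min p.1 p.2 + 1)) :
    colLbl G p i (G + 2) = p.2 := by
  fin_cases G <;> simp [colLbl]

theorem colLbl_ok (G : Fin 3) (p : ℕ × ℕ) (i : Fin (min p.1 p.2 + 1)) :
    LblOK (colLbl G p i) := by
  rw [lblOK_iff _ G, colLbl_G, colLbl_one, colLbl_two, Nat.even_iff]
  have := i.isLt
  omega

/-- The point of a column in the block of `x`. -/
def colPnt (G : Fin 3) (x : Pnt) (s : Col (blkLab G x)) : Pnt :=
  ⟨⟨colLbl G (blkLab G x) s.1, colLbl_ok _ _ _⟩, fun k =>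
    ⟨if k = G then (s.2 : ℕ) else idx x k, by
      by_cases hk : k = G
      · rw [if_pos hk, hk]
        show (s.2 : ℕ) < colLbl G (blkLab G x) s.1 G + 1
        rw [colLbl_G]
        exact s.2.isLt
      · rw [if_neg hk]
        have h : colLbl G (blkLab G x) s.1 k = lab x k := by
          rcases fin3_cases G k with rfl | rfl | rfl
          · exact absurd rfl hk
          · exact colLbl_one _ _ _
          · exact colLbl_two _ _ _
        show idx x k < colLbl G (blkLab G x) s.1 k + 1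
        rw [h]
        exact (x.2 k).isLt⟩⟩

theorem colPnt_same (G : Fin 3) (x : Pnt) (s : Col (blkLab G x)) :
    SameBlk G x (colPnt G x s) := by
  refine ⟨(colLbl_one G _ s.1).symm, (colLbl_two G _ s.1).symm, ?_, ?_⟩ <;>
    fin_cases G <;> simp [colPnt, idx]

theorem colPnt_inj (G : Fin 3) (x : Pnt) (s s' : Col (blkLab G x))
    (h1 : lab (colPnt G x s) G = lab (colPnt G x s') G)
    (h2 : idx (colPnt G x s) G = idx (colPnt G x s') G) : s = s' := by
  obtain ⟨i, j⟩ := s
  obtain ⟨i', j'⟩ := s'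
  obtain rfl : i = i' := by
    have h : colLbl G (blkLab G x) i G = colLbl G (blkLab G x) i' G := h1
    rw [colLbl_G, colLbl_G] at h
    exact Fin.ext (by omega)
  congr 1
  simp [colPnt, idx] at h2
  exact Fin.ext h2

theorem colPnt_surj (G : Fin 3) {x z : Pnt} (h : SameBlk G x z) :
    ∃ s, colPnt G x s = z := by
  obtain ⟨he, h1, h2, h3⟩ := (lblOK_iff (lab z) G).1 z.1.2
  rw [← h.1, ← h.2.1, Nat.even_iff] at *
  have hi : (lab z G - (max (lab x (G + 1)) (lab x (G + 2)) -
      min (lab x (G + 1)) (lab x (G + 2)))) / 2 < min (lab x (G + 1)) (lab x (G + 2)) + 1 := by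
    omega
  have hb : max (lab x (G + 1)) (lab x (G + 2)) - min (lab x (G + 1)) (lab x (G + 2)) +
      2 * ((lab z G - (max (lab x (G + 1)) (lab x (G + 2)) -
        min (lab x (G + 1)) (lab x (G + 2)))) / 2) = lab z G := by
    omega
  refine ⟨⟨⟨_, hi⟩, ⟨idx z G, ?_⟩⟩, Pnt.ext' (fun k => ?_) fun k => ?_⟩
  · show idx z G < max (lab x (G + 1)) (lab x (G + 2)) - min (lab x (G + 1)) (lab x (G + 2)) +
      2 * ((lab z G - (max (lab x (G + 1)) (lab x (G + 2)) -
        min (lab x (G + 1)) (lab x (G + 2)))) / 2) + 1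
    rw [hb]
    exact (z.2 G).isLt
  · rcases fin3_cases G k with rfl | rfl | rfl
    · exact (colLbl_G _ _ _).trans hb
    · exact (colLbl_one _ _ _).trans h.1
    · exact (colLbl_two _ _ _).trans h.2.1
  · rcases fin3_cases G k with rfl | rfl | rfl
    · simp [colPnt, idx]
    · rw [← h.2.2.1]
      fin_cases G <;> simp [colPnt, idx]
    · rw [← h.2.2.2]
      fin_cases G <;> simp [colPnt, idx]

/-- The unitary matrix of a complete block. -/
def blkU (G : Fin 3) (x : Pnt) :
    Matrix (Fin (lab x (G + 1) + 1) × Fin (lab x (G + 2) + 1)) (Col (blkLab G x)) ℂ :=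
  fun u s => cmat G (blkLab G x) (lab (colPnt G x s)) u (idF (colPnt G x s) G)

theorem blkU_mul_conjTranspose (G : Fin 3) (x : Pnt) : blkU G x * (blkU G x)ᴴ = 1 := by
  have h : (blkU G x)ᴴ * blkU G x = 1 := by
    ext s s'
    refine ((Matrix.mul_apply).trans ?_).trans ((cmat_inner (colPnt G x s) (colPnt G x s')
      (colPnt_same G x s).blkLab (colPnt_same G x s').blkLab).trans ?_)
    · rw [Matrix.mul_apply]; rfl
    · rw [Matrix.one_apply]
      by_cases e : s = s'
      · subst e; simp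
      · rw [if_neg e, if_neg fun h => e (colPnt_inj G x s s' h.1 h.2)]
  exact (Matrix.mul_eq_one_comm_of_equiv (Fintype.equivOfCardEq (card_col _)).symm).1 h

theorem dot_self {n : Type*} [Fintype n] (v : n → ℂ) :
    star v ⬝ᵥ v = ((∑ i, ‖v i‖ ^ 2 : ℝ) : ℂ) := by
  simp [dotProduct, Complex.conj_mul']

variable {K : ℕ} {G : Fin 3} {M N : ∀ p, BlkMat p}

/-- The points in the gauge block of `x` all lie below `K` if `a + c ≤ K`. -/
theorem blk_le {x y : Pnt} (h : SameBlk G x y)
    (hx : lab x (G + 1) + lab x (G + 2) ≤ K) : ∀ k, lab y k ≤ K := by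
  intro k
  have h1 := ((lblOK_iff (lab y) G).1 y.1.2).2.1
  have := h.1
  have := h.2.1
  rcases fin3_cases G k with rfl | rfl | rfl <;> omega

theorem gaugeEntry_one (x y : Pnt) :
    gaugeEntry G (fun _ => 1) x y = if x = y then 1 else 0 := by
  by_cases h : SameBlk G x y
  · rw [gaugeEntry_of_same rfl h, Matrix.mul_one, cmat_inner x y rfl h.blkLab]
    refine if_congr ⟨fun hb => Pnt.ext' (fun k => ?_) fun k => ?_, fun e => by simp [e]⟩ rfl rfl
    · rcases fin3_cases G k with rfl | rfl | rfl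
      exacts [hb.1, h.1, h.2.1]
    · rcases fin3_cases G k with rfl | rfl | rfl
      exacts [hb.2, h.2.2.1, h.2.2.2]
  · rw [gaugeEntry_of_not h, if_neg]
    rintro rfl
    exact h (SameBlk.refl G x)

/-- The block picture is multiplicative on complete blocks. -/
theorem gaugeEntry_mul (x y : Pnt) (hx : lab x (G + 1) + lab x (G + 2) ≤ K) :
    ∑ z : PntK K, gaugeEntry G M x z.out * gaugeEntry G N z.out y =
      gaugeEntry G (fun p => M p * N p) x y := by
  classical
  by_cases hxy : SameBlk G x y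
  swap
  · rw [gaugeEntry_of_not hxy]
    refine Finset.sum_eq_zero fun z _ => ?_
    by_cases h1 : SameBlk G x z.out
    · rw [gaugeEntry_of_not fun h2 => hxy (h1.trans h2), mul_zero]
    · rw [gaugeEntry_of_not h1, zero_mul]
  let e : Col (blkLab G x) → PntK K := fun s =>
    ⟨⟨fun k => ⟨lab (colPnt G x s) k, Nat.lt_succ_of_le (blk_le (colPnt_same G x s) hx k)⟩,
      (colPnt G x s).1.2⟩, (colPnt G x s).2⟩
  have he : ∀ s, (e s).out = colPnt G x s := fun s => Pnt.ext' (fun _ => rfl) fun _ => rfl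
  have hinj : Function.Injective e := fun s s' h => by
    have h' := congrArg PntK.out h
    rw [he, he] at h'
    exact colPnt_inj G x s s' (by rw [h']) (by rw [h'])
  have hrest : ∀ z, z ∉ Set.range e →
      gaugeEntry G M x z.out * gaugeEntry G N z.out y = 0 := fun z hz => by
    rw [gaugeEntry_of_not fun h => ?_, zero_mul]
    obtain ⟨s, hs⟩ := colPnt_surj G h
    exact hz ⟨s, PntK.out_injective ((he s).trans hs)⟩
  rw [← Fintype.sum_of_injective e hinj _ _ hrest fun s => rfl]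
  have key : ∀ s, gaugeEntry G M x (e s).out * gaugeEntry G N (e s).out y =
      ((cmat G (blkLab G x) (lab x))ᴴ * M (blkLab G x) * blkU G x) (idF x G) s *
        ((blkU G x)ᴴ * (N (blkLab G x) * cmat G (blkLab G x) (lab y))) s (idF y G) := fun s => by
    rw [he, gaugeEntry_of_same rfl (colPnt_same G x s),
      gaugeEntry_of_same (colPnt_same G x s).blkLab ((colPnt_same G x s).symm.trans hxy),
      Matrix.mul_assoc _ (N (blkLab G x)), Matrix.mul_apply, Matrix.mul_apply, Matrix.mul_apply,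
      Matrix.mul_apply]
    rfl
  simp only [key]
  rw [← Matrix.mul_apply, gaugeEntry_of_same rfl hxy,
    Matrix.mul_assoc ((cmat G (blkLab G x) (lab x))ᴴ * M (blkLab G x)),
    ← Matrix.mul_assoc (blkU G x), blkU_mul_conjTranspose, Matrix.one_mul]
  simp only [Matrix.mul_assoc]

theorem gaugeEntry_conj (x y : Pnt) :
    star (gaugeEntry G M y x) = gaugeEntry G (fun p => (M p)ᴴ) x y := by
  by_cases h : SameBlk G x y
  · rw [gaugeEntry_of_same rfl h, gaugeEntry_of_same (p := blkLab G x) h.blkLab h.symm,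
      ← conjTranspose_apply, conjTranspose_mul, conjTranspose_mul, conjTranspose_conjTranspose,
      Matrix.mul_assoc]
  · rw [gaugeEntry_of_not h, gaugeEntry_of_not fun h' => h h'.symm, star_zero]

/-- The operator from the truncation at `K` into the complete blocks at `2 K`. -/
def bigMat (K : ℕ) (G : Fin 3) (L : ∀ p, BlkMat p) : Matrix (PntK (2 * K)) (PntK K) ℂ :=
  fun z y => gaugeEntry G L z.out y.out

theorem bigMat_sq (L : ∀ p, BlkMat p) :
    (bigMat K G L)ᴴ * bigMat K G L = gaugeMat K G (fun p => (L p)ᴴ * L p) := by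
  ext x y
  have hx : lab x.out (G + 1) + lab x.out (G + 2) ≤ 2 * K := by
    have h1 : (x.1.1 (G + 1) : ℕ) < K + 1 := (x.1.1 (G + 1)).isLt
    have h2 : (x.1.1 (G + 2) : ℕ) < K + 1 := (x.1.1 (G + 2)).isLt
    show (x.1.1 (G + 1) : ℕ) + (x.1.1 (G + 2) : ℕ) ≤ 2 * K
    omega
  rw [Matrix.mul_apply, gaugeMat, ← gaugeEntry_mul (K := 2 * K) x.out y.out hx]
  refine Finset.sum_congr rfl fun z _ => ?_
  rw [← gaugeEntry_conj]
  rfl

theorem gaugeMat_posSemidef (hM : ∀ p, (M p).PosSemidef) :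
    (gaugeMat K G M).PosSemidef := by
  choose L hL using fun p => psd_factor (hM p)
  rw [show M = fun p => (L p)ᴴ * L p from funext hL, ← bigMat_sq]
  exact Matrix.posSemidef_conjTranspose_mul_self _

theorem gaugeMat_add :
    (gaugeMat K G (fun p => M p + N p) : Matrix (PntK K) (PntK K) ℂ) =
      gaugeMat K G M + gaugeMat K G N := by
  ext x y
  simp only [gaugeMat, gaugeEntry, Matrix.add_apply]
  split_ifs <;> simp [mul_add, add_mul, Finset.sum_add_distrib]

theorem gaugeMat_smul (c : ℂ) :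
    (gaugeMat K G (fun p => c • M p) : Matrix (PntK K) (PntK K) ℂ) = c • gaugeMat K G M := by
  ext x y
  simp only [gaugeMat, gaugeEntry, Matrix.smul_apply, smul_eq_mul]
  split_ifs <;> simp [Finset.mul_sum, mul_left_comm, mul_assoc]

theorem gaugeMat_norm_le {C : ℝ} (hC : 0 ≤ C) (hM : ∀ p, ‖M p‖ ≤ C) :
    ‖(gaugeMat K G M)‖ ≤ C := by
  classical
  set B := bigMat K G M
  set A := gaugeMat K G M
  let e : PntK K → PntK (2 * K) := fun x =>
    ⟨⟨fun k => ⟨(x.1.1 k : ℕ), by have := (x.1.1 k).isLt; omega⟩, x.1.2⟩, x.2⟩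
  have he : ∀ x, (e x).out = x.out := fun x => Pnt.ext' (fun _ => rfl) fun _ => rfl
  have hinj : Function.Injective e := fun x y h => by
    have h' := congrArg PntK.out h
    rw [he, he] at h'
    exact PntK.out_injective h'
  have hrow : ∀ (v : PntK K → ℂ) x, (A *ᵥ v) x = (B *ᵥ v) (e x) := fun v x => by
    simp [A, B, Matrix.mulVec, dotProduct, gaugeMat, bigMat, he]
  have hblk : ∀ p, (((C ^ 2 : ℝ) : ℂ) • (1 : BlkMat p) + (-1 : ℂ) • ((M p)ᴴ * M p)).PosSemidef := by
    intro p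
    refine Matrix.PosSemidef.of_dotProduct_mulVec_nonneg ?_ fun v => ?_
    · simp [Matrix.IsHermitian, conjTranspose_add, conjTranspose_smul, conjTranspose_mul]
    · rw [Matrix.add_mulVec, Matrix.smul_mulVec, Matrix.smul_mulVec, Matrix.one_mulVec,
        dotProduct_add, dotProduct_smul, dotProduct_smul, ← Matrix.mulVec_mulVec,
        dotProduct_mulVec, ← Matrix.star_mulVec, dot_self, dot_self, smul_eq_mul, smul_eq_mul,
        neg_one_mul, ← sub_eq_add_neg, ← Complex.ofReal_mul, ← Complex.ofReal_sub,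
        Complex.zero_le_real, sub_nonneg]
      have h := (Matrix.l2_opNorm_mulVec (M p) (WithLp.toLp 2 v)).trans
        (mul_le_mul_of_nonneg_right (hM p) (norm_nonneg _))
      have h2 := pow_le_pow_left₀ (norm_nonneg _) h 2
      simpa [mul_pow, EuclideanSpace.norm_sq_eq] using h2
  have hpos := gaugeMat_posSemidef (K := K) (G := G) hblk
  have e1 : gaugeMat K G (fun p => ((C ^ 2 : ℝ) : ℂ) • (1 : BlkMat p) + (-1 : ℂ) • ((M p)ᴴ * M p)) =
      ((C ^ 2 : ℝ) : ℂ) • (1 : Matrix (PntK K) (PntK K) ℂ) + (-1 : ℂ) • (Bᴴ * B) := by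
    rw [bigMat_sq, gaugeMat_add, gaugeMat_smul, gaugeMat_smul]
    congr 2
    ext x y
    rw [gaugeMat, gaugeEntry_one, Matrix.one_apply]
    exact if_congr PntK.out_injective.eq_iff rfl rfl
  rw [e1] at hpos
  rw [Matrix.l2_opNorm_def]
  refine ContinuousLinearMap.opNorm_le_bound _ hC fun v => ?_
  refine le_of_pow_le_pow_left₀ two_ne_zero (by positivity) ?_
  have h1 := hpos.dotProduct_mulVec_nonneg (WithLp.ofLp v)
  rw [Matrix.add_mulVec, Matrix.smul_mulVec, Matrix.smul_mulVec, Matrix.one_mulVec,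
    dotProduct_add, dotProduct_smul, dotProduct_smul, ← Matrix.mulVec_mulVec,
    dotProduct_mulVec, ← Matrix.star_mulVec, dot_self, dot_self, smul_eq_mul, smul_eq_mul,
    neg_one_mul, ← sub_eq_add_neg, ← Complex.ofReal_mul, ← Complex.ofReal_sub,
    Complex.zero_le_real, sub_nonneg] at h1
  rw [mul_pow, EuclideanSpace.norm_sq_eq, EuclideanSpace.norm_sq_eq]
  refine le_trans ?_ h1
  show ∑ x, ‖(A *ᵥ WithLp.ofLp v) x‖ ^ 2 ≤ _
  simp only [hrow]
  refine le_trans (le_of_eq ?_) (Finset.sum_le_sum_of_subset_of_nonneg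
    (Finset.subset_univ (Finset.univ.image e)) fun _ _ _ => sq_nonneg _)
  rw [Finset.sum_image hinj.injOn]

/-- A function of the two frozen labels is diagonal. -/
theorem gaugeMat_scalar (f : ℕ × ℕ → ℂ) :
    (gaugeMat K G (fun p => f p • 1) : Matrix (PntK K) (PntK K) ℂ) =
      Matrix.diagonal fun x => f (blkLab G x.out) := by
  ext x y
  have e : gaugeEntry G (fun p => f p • (1 : BlkMat p)) x.out y.out =
      f (blkLab G x.out) * gaugeEntry G (fun _ => 1) x.out y.out := by
    simp only [gaugeEntry, Matrix.smul_apply, smul_eq_mul]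
    split_ifs <;> simp [Finset.mul_sum, mul_left_comm, mul_assoc]
  rw [gaugeMat, e, gaugeEntry_one, Matrix.diagonal_apply, mul_ite, mul_one, mul_zero]
  exact if_congr PntK.out_injective.eq_iff rfl rfl

/-- The real structure on coefficient vectors is `c ↦ thetaMat * conj c`. -/
def thetaMat (K : ℕ) : Matrix (PntK K) (PntK K) ℂ :=
  fun x y => if h : x.1 = y.1 then
    ∏ k, conjJ (x.1.1 k) (x.2 k) (Fin.cast (by rw [h]) (y.2 k)) else 0

theorem map_star_mul {l m n : Type*} [Fintype m] (A : Matrix l m ℂ) (B : Matrix m n ℂ) :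
    (A * B).map star = A.map star * B.map star := by
  ext i j
  simp [Matrix.mul_apply]

theorem conjJ_unitary (a : ℕ) : (conjJ a)ᴴ * conjJ a = 1 ∧ conjJ a * (conjJ a)ᴴ = 1 := by
  have h : (conjJ a)ᴴ * conjJ a = 1 := by
    rw [conjJ, ← rep_star, ← rep_mul,
      show star (imUnit 1) * imUnit 1 = 1 by
        rw [Quaternion.star_mul_self, Quaternion.normSq_def']; simp [imUnit]]
    exact rep_one a
  exact ⟨h, mul_eq_one_comm.1 h⟩

theorem gen_map_star (a : ℕ) (k : Fin 3) : (gen a k).map star = -(gen a k)ᵀ := by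
  rw [show (gen a k).map star = ((gen a k)ᴴ)ᵀ from rfl, gen_skew]
  simp

theorem conjJ_mul_gen (a : ℕ) (k : Fin 3) : conjJ a * gen a k = -((gen a k)ᵀ * conjJ a) := by
  have h' : (conjJ a).map star * ((gen a k).map star).map star =
      (gen a k).map star * (conjJ a).map star := by
    have hm : ∀ A B : Matrix (Fin (a + 1)) (Fin (a + 1)) ℂ,
        (A * B).map star = A.map star * B.map star := fun A B => by
      ext i j
      simp [Matrix.mul_apply]
    rw [← hm, ← hm, gen_real]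
  rw [Matrix.map_map, show (star : ℂ → ℂ) ∘ star = id from funext star_star, Matrix.map_id,
    conjJ_map_star, gen_map_star] at h'
  simpa [Matrix.neg_mul] using h'

theorem cmat_real (G : Fin 3) (p : ℕ × ℕ) (t : Lbl) : (cmat G p t).map star = cmat G p t := by
  ext u l
  simp only [Matrix.map_apply, cmat, coupN]
  split_ifs
  · simp only [coup, star_mul', star_sum, apply_ite star, inv_real, star_zero]
    rw [Complex.star_def, Complex.conj_ofReal]
  · simp

theorem cmat_conjJ {G : Fin 3} {t : Lbl} {p : ℕ × ℕ} (ht : LblOK t)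
    (hp : (t (G + 1), t (G + 2)) = p) :
    (conjJ p.1 ⊗ₖ conjJ p.2) * (cmat G p t).map star = cmat G p t * conjJ (t G) ∧
      conjJ (t G) * (cmat G p t)ᵀ = (cmat G p t)ᴴ * (conjJ p.1 ⊗ₖ conjJ p.2) := by
  subst hp
  rw [cmat_self]
  have h := coup_conjJ ht G
  refine ⟨h, ?_⟩
  set J := conjJ (t (G + 1)) ⊗ₖ conjJ (t (G + 2)) with hJ
  have hJu : Jᴴ * J = 1 := by
    rw [hJ, Matrix.conjTranspose_kronecker, ← Matrix.mul_kronecker_mul, (conjJ_unitary _).1,
      (conjJ_unitary _).1, Matrix.one_kronecker_one]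
  have h2 : (coup t G)ᵀ * Jᴴ = (conjJ (t G))ᴴ * (coup t G)ᴴ := by
    have h3 := congrArg Matrix.conjTranspose h
    rw [conjTranspose_mul, conjTranspose_mul] at h3
    rwa [show ((coup t G).map star)ᴴ = (coup t G)ᵀ by ext i j; simp] at h3
  calc conjJ (t G) * (coup t G)ᵀ = conjJ (t G) * ((coup t G)ᵀ * Jᴴ) * J := by
        rw [Matrix.mul_assoc (conjJ (t G)), Matrix.mul_assoc _ Jᴴ J, hJu, Matrix.mul_one]
    _ = _ := by rw [h2, ← Matrix.mul_assoc (conjJ (t G)), (conjJ_unitary _).2, Matrix.one_mul]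

theorem thetaMat_apply_same {K : ℕ} (t : {t : Fin 3 → Fin (K + 1) // LblOK fun k => (t k : ℕ)})
    (m n : MIdx fun k => (t.1 k : ℕ)) :
    thetaMat K ⟨t, m⟩ ⟨t, n⟩ = ∏ k, conjJ (t.1 k) (m k) (n k) := by
  simp [thetaMat]

theorem thetaMat_sq : thetaMat K * (thetaMat K).map star = 1 := by
  classical
  ext ⟨t, m⟩ ⟨u, n⟩
  rw [Matrix.mul_apply, Fintype.sum_sigma, Fintype.sum_eq_single t fun v hv =>
    Finset.sum_eq_zero fun w _ => by
      rw [show thetaMat K ⟨t, m⟩ ⟨v, w⟩ = 0 from dif_neg (Ne.symm hv), zero_mul]]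
  by_cases htu : t = u
  · subst htu
    have hs : ∀ k, ∑ j, conjJ (t.1 k) (m k) j * star (conjJ (t.1 k) j (n k)) =
        (-1 : ℂ) ^ (t.1 k : ℕ) * if m k = n k then 1 else 0 := fun k => by
      have h := congrFun (congrFun (conjJ_sq (t.1 k : ℕ)) (m k)) (n k)
      simpa [Matrix.mul_apply, Matrix.one_apply] using h
    simp only [Matrix.map_apply, thetaMat_apply_same, star_prod, ← Finset.prod_mul_distrib]
    rw [← Fintype.prod_sum (fun k j => conjJ (t.1 k) (m k) j * star (conjJ (t.1 k) j (n k))),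
      Finset.prod_congr rfl fun k _ => hs k, Finset.prod_mul_distrib, Finset.prod_pow_eq_pow_sum,
      Fin.sum_univ_three, (t.2.1).neg_one_pow, one_mul, Matrix.one_apply]
    by_cases hmn : m = n
    · subst hmn; simp
    · obtain ⟨k, hk⟩ := Function.ne_iff.1 hmn
      rw [Finset.prod_eq_zero (Finset.mem_univ k) (if_neg hk), if_neg]
      simpa using hmn
  · rw [Matrix.one_apply_ne (by simp [htu])]
    refine Finset.sum_eq_zero fun w _ => ?_
    rw [Matrix.map_apply, show thetaMat K ⟨t, w⟩ ⟨u, n⟩ = 0 from dif_neg htu, star_zero, mul_zero]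

/-- Replace the index in one slot. -/
def setIdx (G : Fin 3) (x y : Pnt) (h1 : lab x (G + 1) = lab y (G + 1))
    (h2 : lab x (G + 2) = lab y (G + 2)) (j : Fin (lab x G + 1)) : MIdx (lab x) :=
  fun k => ⟨if k = G then (j : ℕ) else idx y k, by
    rcases fin3_cases G k with rfl | rfl | rfl
    · rw [if_pos rfl]; exact j.isLt
    · rw [if_neg (by simp)]; exact h1 ▸ (y.2 _).isLt
    · rw [if_neg (by fin_cases G <;> simp)]; exact h2 ▸ (y.2 _).isLt⟩

theorem setIdx_G (G : Fin 3) (x y : Pnt) (h1 : lab x (G + 1) = lab y (G + 1))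
    (h2 : lab x (G + 2) = lab y (G + 2)) (j : Fin (lab x G + 1)) :
    (setIdx G x y h1 h2 j G : ℕ) = j := by simp [setIdx]

theorem setIdx_one (G : Fin 3) (x y : Pnt) (h1 : lab x (G + 1) = lab y (G + 1))
    (h2 : lab x (G + 2) = lab y (G + 2)) (j : Fin (lab x G + 1)) :
    (setIdx G x y h1 h2 j (G + 1) : ℕ) = idx y (G + 1) := by simp [setIdx]

theorem setIdx_two (G : Fin 3) (x y : Pnt) (h1 : lab x (G + 1) = lab y (G + 1))
    (h2 : lab x (G + 2) = lab y (G + 2)) (j : Fin (lab x G + 1)) :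
    (setIdx G x y h1 h2 j (G + 2) : ℕ) = idx y (G + 2) := by
  fin_cases G <;> simp [setIdx]

theorem sum_blk {A : Type*} [AddCommMonoid A] (G : Fin 3) (x y : Pnt)
    (h1 : lab x (G + 1) = lab y (G + 1)) (h2 : lab x (G + 2) = lab y (G + 2))
    (F : MIdx (lab x) → A)
    (hF : ∀ m : MIdx (lab x), ¬((m (G + 1) : ℕ) = idx y (G + 1) ∧ (m (G + 2) : ℕ) = idx y (G + 2)) →
      F m = 0) :
    ∑ m, F m = ∑ j, F (setIdx G x y h1 h2 j) := by
  refine (Fintype.sum_of_injective (setIdx G x y h1 h2) (fun j j' h => Fin.ext ?_) _ F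
    (fun m hm => hF m fun hc => hm ⟨m G, funext fun k => Fin.ext ?_⟩) fun _ => rfl).symm
  · rw [← setIdx_G G x y h1 h2 j, ← setIdx_G G x y h1 h2 j', h]
  · rcases fin3_cases G k with rfl | rfl | rfl
    · exact setIdx_G _ _ _ _ _ _
    · exact (setIdx_one _ _ _ _ _ _).trans hc.1.symm
    · exact (setIdx_two _ _ _ _ _ _).trans hc.2.symm

/-- Entry of a spin matrix at numbers. -/
def jN (a i j : ℕ) : ℂ :=
  if h : i < a + 1 ∧ j < a + 1 then conjJ a ⟨i, h.1⟩ ⟨j, h.2⟩ else 0

theorem jN_eq {a : ℕ} (i j : Fin (a + 1)) : jN a i j = conjJ a i j :=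
  dif_pos (show (i : ℕ) < a + 1 ∧ (j : ℕ) < a + 1 from ⟨i.isLt, j.isLt⟩)

theorem thetaMat_numbers {K : ℕ} (x z : PntK K) (h : x.1 = z.1) :
    thetaMat K x z = ∏ k, jN (lab x.out k) (idx x.out k) (idx z.out k) := by
  obtain ⟨t, m⟩ := x
  obtain ⟨u, n⟩ := z
  dsimp only at h
  subst h
  rw [thetaMat_apply_same]
  exact Finset.prod_congr rfl fun k _ => (jN_eq _ _).symm

theorem real_core {K : ℕ} {G : Fin 3} {M : ∀ p, BlkMat p} (x y : PntK K)
    (h1 : lab x.out (G + 1) = lab y.out (G + 1)) (h2 : lab x.out (G + 2) = lab y.out (G + 2))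
    (hM : ∀ p, IsRealBlk p (M p)) :
    ∑ z, thetaMat K x z * (gaugeMat K G M).map star z y =
      ∑ z, gaugeMat K G M x z * thetaMat K z y := by
  classical
  set p := blkLab G x.out with hp
  set Cx := cmat G p (lab x.out) with hCx
  set Cy := cmat G p (lab y.out) with hCy
  set c := jN (lab x.out (G + 1)) (idx x.out (G + 1)) (idx y.out (G + 1)) *
    jN (lab x.out (G + 2)) (idx x.out (G + 2)) (idx y.out (G + 2))
  set Jp := conjJ p.1 ⊗ₖ conjJ p.2 with hJp
  have eL : ∑ z, thetaMat K x z * (gaugeMat K G M).map star z y =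
      c * (conjJ (lab x.out G) * (Cxᵀ * (M p).map star * Cy.map star))
        (idF x.out G) (idF y.out G) := by
    rw [Fintype.sum_sigma, Fintype.sum_eq_single x.1 fun v hv =>
      Finset.sum_eq_zero fun w _ => by
        rw [show thetaMat K x ⟨v, w⟩ = 0 from dif_neg (Ne.symm hv), zero_mul]]
    refine (sum_blk G x.out y.out h1 h2 _ fun m hm => ?_).trans ?_
    · rw [Matrix.map_apply]
      erw [show gaugeMat K G M ⟨x.1, m⟩ y = 0 from
        gaugeEntry_of_not fun h => hm ⟨h.2.2.1, h.2.2.2⟩]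
      rw [star_zero, mul_zero]
    rw [Matrix.mul_apply, Finset.mul_sum]
    refine Finset.sum_congr rfl fun j _ => ?_
    have hs : SameBlk G (PntK.out ⟨x.1, setIdx G x.out y.out h1 h2 j⟩) y.out :=
      ⟨h1, h2, setIdx_one G x.out y.out h1 h2 j, setIdx_two G x.out y.out h1 h2 j⟩
    set z : PntK K := ⟨x.1, setIdx G x.out y.out h1 h2 j⟩ with hz
    have hj : (idF z.out G : Fin (lab x.out G + 1)) = j := Fin.ext (setIdx_G G x.out y.out h1 h2 j)
    have e1 : idx z.out (G + 1) = idx y.out (G + 1) := setIdx_one G x.out y.out h1 h2 j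
    have e2 : idx z.out (G + 2) = idx y.out (G + 2) := setIdx_two G x.out y.out h1 h2 j
    have e0 : idx z.out G = (j : ℕ) := setIdx_G G x.out y.out h1 h2 j
    have est : star ((Cxᴴ * M p * Cy) j (idF y.out G)) =
        (Cxᵀ * (M p).map star * Cy.map star) j (idF y.out G) := by
      rw [show (Cxᵀ * (M p).map star * Cy.map star) = (Cxᴴ * M p * Cy).map star by
        rw [map_star_mul, map_star_mul]
        congr 2
        ext a b
        simp]
      rfl
    rw [← est, thetaMat_numbers x z rfl, fin3_prod G, e0, e1, e2, Matrix.map_apply, gaugeMat,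
      gaugeEntry_of_same (x := z.out) (p := p) rfl hs]
    have eJ : jN (lab x.out G) (idx x.out G) (j : ℕ) = conjJ (lab x.out G) (idF x.out G) j :=
      jN_eq _ _
    rw [eJ, show ((cmat G p (lab z.out))ᴴ * M p * cmat G p (lab y.out)) (idF z.out G) (idF y.out G) =
      (Cxᴴ * M p * Cy) j (idF y.out G) by rw [← hj]; rfl]
    simp only [c]
    ring
  have eR : ∑ z, gaugeMat K G M x z * thetaMat K z y =
      c * (Cxᴴ * M p * Cy * conjJ (lab y.out G)) (idF x.out G) (idF y.out G) := by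
    rw [Fintype.sum_sigma, Fintype.sum_eq_single y.1 fun v hv =>
      Finset.sum_eq_zero fun w _ => by
        rw [show thetaMat K ⟨v, w⟩ y = 0 from dif_neg hv, mul_zero]]
    refine (sum_blk G y.out x.out h1.symm h2.symm _ fun m hm => ?_).trans ?_
    · erw [show gaugeMat K G M x ⟨y.1, m⟩ = 0 from
        gaugeEntry_of_not fun h => hm ⟨h.2.2.1.symm, h.2.2.2.symm⟩]
      rw [zero_mul]
    rw [Matrix.mul_apply, Finset.mul_sum]
    refine Finset.sum_congr rfl fun j _ => ?_
    have hs : SameBlk G x.out (PntK.out ⟨y.1, setIdx G y.out x.out h1.symm h2.symm j⟩) :=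
      ⟨h1, h2, (setIdx_one G y.out x.out h1.symm h2.symm j).symm,
        (setIdx_two G y.out x.out h1.symm h2.symm j).symm⟩
    set z : PntK K := ⟨y.1, setIdx G y.out x.out h1.symm h2.symm j⟩ with hz
    have hj : (idF z.out G : Fin (lab y.out G + 1)) = j :=
      Fin.ext (setIdx_G G y.out x.out h1.symm h2.symm j)
    have e1 : idx z.out (G + 1) = idx x.out (G + 1) := setIdx_one G y.out x.out h1.symm h2.symm j
    have e2 : idx z.out (G + 2) = idx x.out (G + 2) := setIdx_two G y.out x.out h1.symm h2.symm j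
    have e0 : idx z.out G = (j : ℕ) := setIdx_G G y.out x.out h1.symm h2.symm j
    have f1 : lab z.out (G + 1) = lab x.out (G + 1) := h1.symm
    have f2 : lab z.out (G + 2) = lab x.out (G + 2) := h2.symm
    rw [thetaMat_numbers z y rfl, fin3_prod G, e0, e1, e2, f1, f2, gaugeMat,
      gaugeEntry_of_same (p := p) rfl hs]
    have eJ : jN (lab z.out G) (j : ℕ) (idx y.out G) = conjJ (lab y.out G) j (idF y.out G) :=
      jN_eq (a := lab y.out G) j (idF y.out G)
    rw [eJ, show ((cmat G p (lab x.out))ᴴ * M p * cmat G p (lab z.out)) (idF x.out G) (idF z.out G) =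
      (Cxᴴ * M p * Cy) (idF x.out G) j by rw [← hj]; rfl]
    simp only [c]
    ring
  rw [eL, eR]
  congr 1
  have hJx := (cmat_conjJ (G := G) (p := p) x.out.1.2 rfl).2
  have hJy := (cmat_conjJ (p := p) y.out.1.2 (Prod.ext h1.symm h2.symm)).1
  have e : conjJ (lab x.out G) * (Cxᵀ * (M p).map star * Cy.map star) =
      Cxᴴ * M p * Cy * conjJ (lab y.out G) := by
    calc _ = conjJ (lab x.out G) * Cxᵀ * (M p).map star * Cy.map star := by
          simp only [Matrix.mul_assoc]
      _ = Cxᴴ * (Jp * (M p).map star) * Cy.map star := by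
          rw [hCx, hJx, ← hJp, Matrix.mul_assoc _ Jp]
      _ = Cxᴴ * (M p * Jp) * Cy.map star := by rw [show Jp * _ = M p * Jp from hM p]
      _ = Cxᴴ * M p * (Jp * Cy.map star) := by simp only [Matrix.mul_assoc]
      _ = _ := by rw [hCy, hJy, ← Matrix.mul_assoc]
  rw [e]

theorem gaugeMat_real (hM : ∀ p, IsRealBlk p (M p)) :
    thetaMat K * (gaugeMat K G M).map star =
      (gaugeMat K G M) * thetaMat K := by
  classical
  ext x y
  rw [Matrix.mul_apply, Matrix.mul_apply]
  by_cases hlab : lab x.out (G + 1) = lab y.out (G + 1) ∧ lab x.out (G + 2) = lab y.out (G + 2)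
  swap
  · rw [Finset.sum_eq_zero fun z _ => ?_, Finset.sum_eq_zero fun z _ => ?_]
    · by_cases hz : z.1 = y.1
      · rw [show gaugeMat K G M x z = 0 from gaugeEntry_of_not fun h => hlab
          ⟨h.1.trans (by simp [lab, PntK.out, hz]), h.2.1.trans (by simp [lab, PntK.out, hz])⟩,
          zero_mul]
      · rw [show thetaMat K z y = 0 from dif_neg hz, mul_zero]
    · by_cases hz : x.1 = z.1
      · rw [Matrix.map_apply, show gaugeMat K G M z y = 0 from gaugeEntry_of_not fun h => hlab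
          ⟨Eq.trans (by simp [lab, PntK.out, hz]) h.1,
            Eq.trans (by simp [lab, PntK.out, hz]) h.2.1⟩, star_zero, mul_zero]
      · rw [show thetaMat K x z = 0 from dif_neg hz, zero_mul]
  exact real_core x y hlab.1 hlab.2 hM

/-- The six derivative operators of a block: slot `G + 1` (`false`) and slot `G + 2` (`true`). -/
def opX (p : ℕ × ℕ) : Bool × Fin 3 → BlkMat p
  | (false, k) => opS p k
  | (true, k) => opT p k

/-- Minus the Laplacian of the left-invariant link metric with inverse Gram matrix `Q`. -/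
def linkOp (Q : Matrix (Bool × Fin 3) (Bool × Fin 3) ℝ) (p : ℕ × ℕ) : BlkMat p :=
  -∑ α, ∑ β, (Q α β : ℂ) • (opX p α * opX p β)

/-- The Ad-invariant inverse Gram matrix with parameters `P`. -/
def adQ (G : Fin 3) (P : Fin 3 → ℝ) : Matrix (Bool × Fin 3) (Bool × Fin 3) ℝ :=
  fun α β => if α.2 = β.2 then
    P G + (if α.1 = β.1 then (if α.1 then P (G + 2) else P (G + 1)) else 0) else 0

theorem kron_map_star {l m n q : Type*} (A : Matrix l m ℂ) (B : Matrix n q ℂ) :
    (A ⊗ₖ B).map star = A.map star ⊗ₖ B.map star := by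
  ext i j
  simp

theorem opX_skew (p : ℕ × ℕ) (α : Bool × Fin 3) : (opX p α)ᴴ = -opX p α := by
  have hT : ∀ (a : ℕ) k, ((gen a k)ᵀ)ᴴ = -(gen a k)ᵀ := fun a k => by
    rw [show ((gen a k)ᵀ)ᴴ = ((gen a k)ᴴ)ᵀ from rfl, gen_skew]
    simp
  obtain ⟨_ | _, k⟩ := α <;>
    simp only [opX, opS, opT, Matrix.conjTranspose_kronecker, conjTranspose_neg, hT,
      conjTranspose_one, neg_neg]
  · ext i j; simp
  · ext i j; simp

theorem opX_real (p : ℕ × ℕ) (α : Bool × Fin 3) : IsRealBlk p (opX p α) := by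
  have hT : ∀ (a : ℕ) k, conjJ a * (-(gen a k)ᵀ).map star = -(gen a k)ᵀ * conjJ a := fun a k => by
    rw [show (-(gen a k)ᵀ).map star = gen a k by
      rw [show (-(gen a k)ᵀ).map star = -((gen a k).map star)ᵀ by ext i j; simp, gen_map_star]
      simp,
      conjJ_mul_gen, Matrix.neg_mul]
  have h1 : ∀ a : ℕ, conjJ a * (1 : Matrix (Fin (a + 1)) (Fin (a + 1)) ℂ).map star =
      (1 : Matrix (Fin (a + 1)) (Fin (a + 1)) ℂ) * conjJ a := fun a => by
    rw [Matrix.map_one _ (star_zero ℂ) (star_one ℂ), Matrix.mul_one, Matrix.one_mul]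
  obtain ⟨_ | _, k⟩ := α <;>
    simp only [IsRealBlk, opX, opS, opT, kron_map_star, ← Matrix.mul_kronecker_mul, hT, h1]

theorem _root_.Vale.Agent.P225.IsRealBlk.add {p : ℕ × ℕ} {A B : BlkMat p} (hA : IsRealBlk p A) (hB : IsRealBlk p B) :
    IsRealBlk p (A + B) := by
  simp only [IsRealBlk] at hA hB ⊢
  rw [show (A + B).map star = A.map star + B.map star by ext i j; simp, Matrix.mul_add,
    Matrix.add_mul, hA, hB]

theorem _root_.Vale.Agent.P225.IsRealBlk.mul {p : ℕ × ℕ} {A B : BlkMat p} (hA : IsRealBlk p A) (hB : IsRealBlk p B) :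
    IsRealBlk p (A * B) := by
  simp only [IsRealBlk] at hA hB ⊢
  rw [map_star_mul, ← Matrix.mul_assoc, hA, Matrix.mul_assoc, hB, Matrix.mul_assoc]

theorem _root_.Vale.Agent.P225.IsRealBlk.smul {p : ℕ × ℕ} {A : BlkMat p} (hA : IsRealBlk p A) (c : ℝ) :
    IsRealBlk p ((c : ℂ) • A) := by
  simp only [IsRealBlk] at hA ⊢
  rw [show ((c : ℂ) • A).map star = (c : ℂ) • A.map star by ext i j; simp, Matrix.mul_smul,
    Matrix.smul_mul, hA]

theorem _root_.Vale.Agent.P225.IsRealBlk.sum {ι : Type*} {p : ℕ × ℕ} (s : Finset ι) {A : ι → BlkMat p}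
    (h : ∀ i ∈ s, IsRealBlk p (A i)) : IsRealBlk p (∑ i ∈ s, A i) :=
  Finset.sum_induction A (IsRealBlk p) (fun _ _ => IsRealBlk.add) (by simp [IsRealBlk]) h

theorem gen_casimir_transpose (a : ℕ) :
    ∑ k, (gen a k)ᵀ * (gen a k)ᵀ =
      (-cas a : ℂ) • (1 : Matrix (Fin (a + 1)) (Fin (a + 1)) ℂ) := by
  have h := congrArg Matrix.transpose (gen_casimir a)
  simpa [Matrix.transpose_sum, Matrix.transpose_mul] using h

theorem opS_casimir (p : ℕ × ℕ) :
    ∑ k, opS p k * opS p k = (-cas p.1 : ℂ) • (1 : BlkMat p) := by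
  simp only [opS, ← Matrix.mul_kronecker_mul, Matrix.one_mul, neg_mul_neg]
  rw [Fin.sum_univ_three, ← Matrix.add_kronecker, ← Matrix.add_kronecker, ← Fin.sum_univ_three
    (fun k => (gen p.1 k)ᵀ * (gen p.1 k)ᵀ), gen_casimir_transpose, Matrix.smul_kronecker,
    Matrix.one_kronecker_one]

theorem opT_casimir (p : ℕ × ℕ) :
    ∑ k, opT p k * opT p k = (-cas p.2 : ℂ) • (1 : BlkMat p) := by
  simp only [opT, ← Matrix.mul_kronecker_mul, Matrix.one_mul, neg_mul_neg]
  rw [Fin.sum_univ_three, ← Matrix.kronecker_add, ← Matrix.kronecker_add, ← Fin.sum_univ_three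
    (fun k => (gen p.2 k)ᵀ * (gen p.2 k)ᵀ), gen_casimir_transpose, Matrix.kronecker_smul,
    Matrix.one_kronecker_one]

theorem linkOp_one (p : ℕ × ℕ) :
    linkOp 1 p = ((cas p.1 + cas p.2 : ℝ) : ℂ) • (1 : BlkMat p) := by
  simp only [linkOp, Matrix.one_apply, apply_ite ((↑) : ℝ → ℂ), Complex.ofReal_one,
    Complex.ofReal_zero, ite_smul, one_smul, zero_smul, Finset.sum_ite_eq, Finset.mem_univ,
    if_true]
  rw [Fintype.sum_prod_type, Fintype.sum_bool]
  simp only [opX, opS_casimir, opT_casimir]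
  push_cast
  module

theorem linkOp_sub_smul (Q : Matrix (Bool × Fin 3) (Bool × Fin 3) ℝ) (s q : ℝ) (p : ℕ × ℕ) :
    linkOp (s • Q + q • 1) p = (s : ℂ) • linkOp Q p + (q : ℂ) • linkOp 1 p := by
  simp only [linkOp, Matrix.add_apply, Matrix.smul_apply, smul_eq_mul, Complex.ofReal_add,
    Complex.ofReal_mul, add_smul, mul_smul, Finset.sum_add_distrib, Finset.smul_sum, smul_neg,
    neg_add]

theorem linkOp_psd {R : Matrix (Bool × Fin 3) (Bool × Fin 3) ℝ} (h : R.PosSemidef) (p : ℕ × ℕ) :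
    (linkOp R p).PosSemidef := by
  obtain ⟨B, rfl⟩ := psd_factor h
  set Y : (Bool × Fin 3) → BlkMat p := fun γ => ∑ α, (B γ α : ℂ) • opX p α with hY
  have hYs : ∀ γ, (Y γ)ᴴ = -Y γ := fun γ => by
    simp [hY, Matrix.conjTranspose_sum, conjTranspose_smul, opX_skew, Finset.sum_neg_distrib]
  have e : linkOp (Bᴴ * B) p = ∑ γ, (Y γ)ᴴ * Y γ := by
    simp only [hYs, neg_mul, Finset.sum_neg_distrib, linkOp, neg_inj]
    simp only [hY, Finset.sum_mul_sum, smul_mul_smul_comm, Matrix.mul_apply,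
      conjTranspose_apply, star_trivial, Complex.ofReal_sum, Finset.sum_smul, Complex.ofReal_mul]
    exact (Finset.sum_congr rfl fun α _ => Finset.sum_comm).trans Finset.sum_comm
  rw [e]
  exact Matrix.posSemidef_sum _ fun γ _ => Matrix.posSemidef_conjTranspose_mul_self _

theorem blk_sum_mul {G : Fin 3} {t : Lbl} {p : ℕ × ℕ} (ht : LblOK t)
    (hp : (t (G + 1), t (G + 2)) = p) (k : Fin 3) :
    (opS p k + opT p k) * cmat G p t = cmat G p t * gen (t G) k := by
  have h := congrArg (fun A => A.map star) (show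
      (gen p.1 k ⊗ₖ (1 : Matrix (Fin (p.2 + 1)) (Fin (p.2 + 1)) ℂ) +
        (1 : Matrix (Fin (p.1 + 1)) (Fin (p.1 + 1)) ℂ) ⊗ₖ gen p.2 k) * cmat G p t =
      -(cmat G p t * (gen (t G) k)ᵀ) by
    subst hp
    rw [cmat_self]
    exact coup_intertwine ht G k)
  simp only at h
  rw [map_star_mul, show (-(cmat G p t * (gen (t G) k)ᵀ)).map star =
      -((cmat G p t).map star * ((gen (t G) k).map star)ᵀ) by
    rw [show ((gen (t G) k).map star)ᵀ = (gen (t G) k)ᵀ.map star from rfl, ← map_star_mul]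
    ext i j; simp [Matrix.mul_apply],
    cmat_real, gen_map_star] at h
  rw [show (gen p.1 k ⊗ₖ (1 : Matrix (Fin (p.2 + 1)) (Fin (p.2 + 1)) ℂ) +
        (1 : Matrix (Fin (p.1 + 1)) (Fin (p.1 + 1)) ℂ) ⊗ₖ gen p.2 k).map star =
      opS p k + opT p k by
    simp only [opS, opT, ← gen_map_star]
    ext i j
    simp [Matrix.one_apply, apply_ite (starRingEnd ℂ)]] at h
  simpa using h

/-- An Ad-invariant metric is diagonal in the points, in every gauge. -/
theorem gaugeEntry_adQ (P : Fin 3 → ℝ) (x y : Pnt) :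
    gaugeEntry G (linkOp (adQ G P)) x y =
      if x = y then ((∑ k, P k * cas (lab x k) : ℝ) : ℂ) else 0 := by
  by_cases h : SameBlk G x y
  swap
  · rw [gaugeEntry_of_not h, if_neg]
    rintro rfl
    exact h (SameBlk.refl G x)
  set p := blkLab G x with hp
  set C' := cmat G p (lab y) with hC'
  have hsum : ∀ k, (opS p k + opT p k) * C' = C' * gen (lab y G) k := fun k =>
    blk_sum_mul y.1.2 h.blkLab k
  have hsq : (∑ k, (opS p k + opT p k) * (opS p k + opT p k)) * C' =
      (-cas (lab y G) : ℂ) • C' := by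
    rw [Matrix.sum_mul]
    simp only [Matrix.mul_assoc, hsum]
    simp only [← Matrix.mul_assoc, hsum]
    simp only [Matrix.mul_assoc, ← Matrix.mul_sum, gen_casimir, Matrix.mul_smul, Matrix.mul_one]
  have hlink : linkOp (adQ G P) p = -((P (G + 1) : ℂ) • ∑ k, opS p k * opS p k +
      (P (G + 2) : ℂ) • ∑ k, opT p k * opT p k +
      (P G : ℂ) • ∑ k, (opS p k + opT p k) * (opS p k + opT p k)) := by
    simp only [linkOp, Fintype.sum_prod_type, Fintype.sum_bool, adQ, apply_ite ((↑) : ℝ → ℂ),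
      Complex.ofReal_zero, ite_smul, zero_smul, Finset.sum_ite_eq, Finset.mem_univ, if_true, opX,
      reduceCtorEq, if_false, ↓reduceIte, Complex.ofReal_add, add_smul, add_zero,
      Finset.sum_add_distrib, Finset.smul_sum, mul_add, add_mul, smul_add]
    simp [Finset.sum_add_distrib]
    abel
  have hlC : linkOp (adQ G P) p * C' =
      (((P (G + 1) * cas p.1 + P (G + 2) * cas p.2 + P G * cas (lab y G) : ℝ)) : ℂ) • C' := by
    rw [hlink, opS_casimir, opT_casimir, Matrix.neg_mul, Matrix.add_mul, Matrix.add_mul,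
      Matrix.smul_mul, Matrix.smul_mul, Matrix.smul_mul, Matrix.smul_mul, Matrix.smul_mul]
    simp only [Matrix.smul_mul, Matrix.one_mul, hsq]
    push_cast
    module
  rw [gaugeEntry_of_same (p := p) rfl h, Matrix.mul_assoc, hlC, Matrix.mul_smul,
    Matrix.smul_apply, smul_eq_mul, ← Matrix.mul_one (cmat G p (lab x))ᴴ,
    ← gaugeEntry_of_same (M := fun _ => 1) (p := p) rfl h, gaugeEntry_one, mul_ite, mul_one,
    mul_zero]
  by_cases e : x = y
  · subst e
    rw [if_pos rfl, if_pos rfl, fin3_sum G]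
    simp only [hp, Complex.ofReal_inj]
    ring
  · rw [if_neg e, if_neg e]

theorem linkOp_real (Q : Matrix (Bool × Fin 3) (Bool × Fin 3) ℝ) (p : ℕ × ℕ) :
    IsRealBlk p (linkOp Q p) := by
  have h : IsRealBlk p (∑ α, ∑ β, (Q α β : ℂ) • (opX p α * opX p β)) :=
    IsRealBlk.sum _ fun α _ => IsRealBlk.sum _ fun β _ =>
      ((opX_real p α).mul (opX_real p β)).smul _
  simpa [linkOp] using h.smul (-1)

theorem linkOp_hermitian {Q : Matrix (Bool × Fin 3) (Bool × Fin 3) ℝ} (hQ : Q.IsSymm)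
    (p : ℕ × ℕ) : (linkOp Q p).IsHermitian := by
  show (linkOp Q p)ᴴ = linkOp Q p
  simp only [linkOp, conjTranspose_neg, Matrix.conjTranspose_sum, conjTranspose_smul,
    conjTranspose_mul, opX_skew, neg_mul_neg, Complex.star_def, Complex.conj_ofReal]
  rw [Finset.sum_comm]
  simp only [hQ.apply]

/-- Bounds of the inverse Gram matrix give bounds by `cas a + cas c`. -/
theorem linkOp_ge {Q : Matrix (Bool × Fin 3) (Bool × Fin 3) ℝ} (hQ : Q.IsSymm) {q : ℝ}
    (h : (Q - q • 1).PosSemidef) (p : ℕ × ℕ) :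
    (linkOp Q p - ((q * (cas p.1 + cas p.2) : ℝ) : ℂ) • 1).PosSemidef := by
  have e : Q - q • (1 : Matrix (Bool × Fin 3) (Bool × Fin 3) ℝ) = (1 : ℝ) • Q + (-q) • 1 := by
    module
  rw [e] at h
  have h' := linkOp_psd h p
  rw [linkOp_sub_smul, linkOp_one] at h'
  convert h' using 1
  push_cast
  module

theorem linkOp_le {Q : Matrix (Bool × Fin 3) (Bool × Fin 3) ℝ} (hQ : Q.IsSymm) {q : ℝ}
    (h : (q • 1 - Q).PosSemidef) (p : ℕ × ℕ) :
    (((q * (cas p.1 + cas p.2) : ℝ) : ℂ) • 1 - linkOp Q p).PosSemidef := by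
  have e : q • (1 : Matrix (Bool × Fin 3) (Bool × Fin 3) ℝ) - Q = (-1 : ℝ) • Q + q • 1 := by
    module
  rw [e] at h
  have h' := linkOp_psd h p
  rw [linkOp_sub_smul, linkOp_one] at h'
  convert h' using 1
  push_cast
  module

end Vale.Agent.P225.SU2
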