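import Vale.Agent.P225.Count.Defs
import Vale.Agent.P225.SU2.Rep

/-!
P225, module C: the unit invariant tensor of a label triple and the coupling isometry of the two
other labels onto the label `G`.
-/

noncomputable section

namespace Vale.Agent.P225.SU2

open Matrix
open scoped Quaternion ComplexOrder Kronecker Matrix.Norms.L2Operator

/-- An index vector of a triple. -/
abbrev MIdx (t : Lbl) := ∀ k : Fin 3, Fin (t k + 1)

/-- The coefficient of `u^m₀ v^m₁ w^m₂` in `[uv]^p [vw]^q [wu]^r`, in the orthonormal basis. -/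
def rawInv (t : Lbl) (m : MIdx t) : ℝ :=
  let p := (t 0 + t 1 - t 2) / 2
  let q := (t 1 + t 2 - t 0) / 2
  let r := (t 2 + t 0 - t 1) / 2
  (∑ x ∈ Finset.range (p + 1), ∑ y ∈ Finset.range (q + 1), ∑ z ∈ Finset.range (r + 1),
    if x + (r - z) = (m 0 : ℕ) ∧ (p - x) + y = (m 1 : ℕ) ∧ (q - y) + z = (m 2 : ℕ) then
      (-1 : ℝ) ^ ((p - x) + (q - y) + (r - z)) * (p.choose x * q.choose y * r.choose z)
    else 0) / Real.sqrt (∏ k, ((t k).choose (m k) : ℝ))

/-- The normalised invariant tensor. -/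
def inv (t : Lbl) (m : MIdx t) : ℂ :=
  ((rawInv t m / Real.sqrt (∑ n, rawInv t n ^ 2) : ℝ) : ℂ)

/-- One power of a bracket, expanded. -/
theorem bracket_pow (a b : ℂ) (p : ℕ) :
    (a - b) ^ p = ∑ x ∈ Finset.range (p + 1), (-1 : ℂ) ^ (p - x) * (p.choose x) *
      (a ^ x * b ^ (p - x)) := by
  rw [sub_eq_add_neg, add_pow]
  refine Finset.sum_congr rfl fun x _ => ?_
  rw [neg_pow b]; ring

/-- The polynomial of the raw tensor is the product of the brackets. -/
theorem raw_expand {t : Lbl} (ht : LblOK t) (X Y : Fin 3 → ℂ) :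
    ∑ m : MIdx t, (rawInv t m : ℂ) *
        ∏ k, ((Real.sqrt ((t k).choose (m k)) : ℂ) * (X k ^ (m k : ℕ) * Y k ^ (t k - m k))) =
      (X 0 * Y 1 - X 1 * Y 0) ^ ((t 0 + t 1 - t 2) / 2) *
        (X 1 * Y 2 - X 2 * Y 1) ^ ((t 1 + t 2 - t 0) / 2) *
        (X 2 * Y 0 - X 0 * Y 2) ^ ((t 2 + t 0 - t 1) / 2) := by
  set p := (t 0 + t 1 - t 2) / 2 with hp
  set q := (t 1 + t 2 - t 0) / 2 with hq
  set r := (t 2 + t 0 - t 1) / 2 with hr
  obtain ⟨he, e0, e1, e2⟩ := ht
  rw [Nat.even_iff] at he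
  have s0 : p + r = t 0 := by omega
  have s1 : p + q = t 1 := by omega
  have s2 : q + r = t 2 := by omega
  have weight : ∀ m : MIdx t, (rawInv t m : ℂ) *
      ∏ k, ((Real.sqrt ((t k).choose (m k)) : ℂ) * (X k ^ (m k : ℕ) * Y k ^ (t k - m k))) =
      ∑ x ∈ Finset.range (p + 1), ∑ y ∈ Finset.range (q + 1), ∑ z ∈ Finset.range (r + 1),
        if x + (r - z) = (m 0 : ℕ) ∧ (p - x) + y = (m 1 : ℕ) ∧ (q - y) + z = (m 2 : ℕ) then
          (-1 : ℂ) ^ ((p - x) + (q - y) + (r - z)) * (p.choose x * q.choose y * r.choose z) *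
            ∏ k, (X k ^ (m k : ℕ) * Y k ^ (t k - m k))
        else 0 := by
    intro m
    have hpos : ∀ k, (0 : ℝ) < Real.sqrt ((t k).choose (m k)) := fun k =>
      Real.sqrt_pos.2 (by exact_mod_cast Nat.choose_pos (Nat.lt_succ_iff.1 (m k).2))
    have hne : (∏ k, (Real.sqrt ((t k).choose (m k)) : ℂ)) ≠ 0 :=
      Finset.prod_ne_zero_iff.2 fun k _ => by exact_mod_cast (hpos k).ne'
    rw [rawInv, Real.sqrt_prod _ fun k _ => Nat.cast_nonneg _, Complex.ofReal_div,
      Complex.ofReal_prod, Finset.prod_mul_distrib, ← mul_assoc, div_mul_cancel₀ _ hne]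
    simp only [← hp, ← hq, ← hr, Complex.ofReal_sum, Finset.sum_mul]
    refine Finset.sum_congr rfl fun x _ => Finset.sum_congr rfl fun y _ =>
      Finset.sum_congr rfl fun z _ => ?_
    split_ifs <;> simp
  simp only [weight]
  rw [Finset.sum_comm, bracket_pow, bracket_pow, bracket_pow, Finset.sum_mul_sum, Finset.sum_mul]
  refine Finset.sum_congr rfl fun x hx => ?_
  rw [Finset.sum_comm, Finset.sum_mul]
  refine Finset.sum_congr rfl fun y hy => ?_
  rw [Finset.sum_comm, Finset.mul_sum]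
  refine Finset.sum_congr rfl fun z hz => ?_
  rw [Finset.mem_range] at hx hy hz
  let m0 : MIdx t := fun k => ⟨![x + (r - z), (p - x) + y, (q - y) + z] k, by
    fin_cases k <;> simp <;> omega⟩
  rw [Finset.sum_eq_single m0]
  · rw [if_pos ⟨rfl, rfl, rfl⟩, Fin.prod_univ_three]
    have v0 : t 0 - (x + (r - z)) = (p - x) + z := by omega
    have v1 : t 1 - ((p - x) + y) = x + (q - y) := by omega
    have v2 : t 2 - ((q - y) + z) = y + (r - z) := by omega
    simp only [m0, Matrix.cons_val_zero, Matrix.cons_val_one, Matrix.cons_val_two,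
      Matrix.tail_cons, Matrix.head_cons, v0, v1, v2, pow_add, mul_pow]
    ring
  · intro m _ hne
    rw [if_neg]
    rintro ⟨c0, c1, c2⟩
    refine hne (funext fun k => Fin.ext ?_)
    fin_cases k <;> simp [m0, c0, c1, c2]
  · simp

/-- A coordinate of the three slots, as a dependent pair and a single index. -/
def slotEquiv (t : Lbl) (G : Fin 3) :
    (Fin (t (G + 1) + 1) × Fin (t (G + 2) + 1)) × Fin (t G + 1) ≃ MIdx t where
  toFun x := Function.update (Function.update (Function.update (fun _ => 0) G x.2) (G + 1) x.1.1)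
    (G + 2) x.1.2
  invFun m := ((m (G + 1), m (G + 2)), m G)
  left_inv := by
    rintro ⟨⟨a, b⟩, c⟩
    have h1 : G + 1 ≠ G + 2 := by omega
    have h2 : G ≠ G + 2 := by omega
    have h3 : G ≠ G + 1 := by omega
    simp [h1, h2, h3]
  right_inv := by
    intro m
    funext k
    rcases (show k = G ∨ k = G + 1 ∨ k = G + 2 by omega) with rfl | rfl | rfl
    · simp [show k ≠ k + 2 by omega, show k ≠ k + 1 by omega]
    · simp [show G + 1 ≠ G + 2 by omega]
    · simp

/-- A tensor is determined by its polynomial. -/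
theorem midx_coeff_eq_zero {t : Lbl} (d : MIdx t → ℂ)
    (h : ∀ X : Fin 3 → ℂ, ∑ m, d m * ∏ k, X k ^ (m k : ℕ) = 0) (m : MIdx t) : d m = 0 := by
  have e : ∀ x y z : ℂ, ∑ a : Fin (t 0 + 1), (∑ b : Fin (t (0 + 1) + 1),
      (∑ c : Fin (t (0 + 2) + 1), d (slotEquiv t 0 ((b, c), a)) * z ^ (c : ℕ)) * y ^ (b : ℕ)) *
        x ^ (a : ℕ) = 0 := by
    intro x y z
    refine Eq.trans ?_ (h ![x, y, z])
    rw [← (slotEquiv t 0).sum_comp, Fintype.sum_prod_type_right]
    simp only [Fintype.sum_prod_type, Finset.sum_mul]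
    refine Finset.sum_congr rfl fun a _ => Finset.sum_congr rfl fun b _ =>
      Finset.sum_congr rfl fun c _ => ?_
    simp [Fin.prod_univ_three, slotEquiv]
    ring
  obtain ⟨⟨⟨b, c⟩, a⟩, rfl⟩ := (slotEquiv t 0).surjective m
  exact coeff_eq_zero _ (fun z => coeff_eq_zero _
    (fun y => coeff_eq_zero _ (fun x => e x y z) a) b) c

theorem normSq_eq (q : ℍ[ℝ]) :
    qα q * star (qα q) + qβ q * star (qβ q) = (‖q‖ : ℂ) ^ 2 := by
  have h : ‖q‖ ^ 2 = q.re ^ 2 + q.imI ^ 2 + q.imJ ^ 2 + q.imK ^ 2 := by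
    rw [sq, ← Quaternion.normSq_eq_norm_mul_self, Quaternion.normSq_def']
  apply Complex.ext
  · simp [qα, qβ, ← Complex.ofReal_pow, h]; ring
  · simp [qα, qβ, ← Complex.ofReal_pow]; ring

theorem raw_invariant {t : Lbl} (ht : LblOK t) (q : ℍ[ℝ]) (m : MIdx t) :
    ∑ n, (∏ k, rep (t k) q (m k) (n k)) * (rawInv t n : ℂ) =
      (‖q‖ : ℂ) ^ (∑ k, t k) * rawInv t m := by
  set w : MIdx t → ℂ := fun m => ∏ k, (Real.sqrt ((t k).choose (m k)) : ℂ) with hw
  suffices H : (∑ n, (∏ k, rep (t k) q (m k) (n k)) * (rawInv t n : ℂ) -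
      (‖q‖ : ℂ) ^ (∑ k, t k) * rawInv t m) * w m = 0 by
    have hwm : w m ≠ 0 := Finset.prod_ne_zero_iff.2 fun k _ => by
      exact_mod_cast (Real.sqrt_pos.2 (show (0 : ℝ) < (t k).choose (m k) by
        exact_mod_cast Nat.choose_pos (Nat.lt_succ_iff.1 (m k).2))).ne'
    exact sub_eq_zero.1 ((mul_eq_zero.1 H).resolve_right hwm)
  refine midx_coeff_eq_zero (fun m => (∑ n, (∏ k, rep (t k) q (m k) (n k)) * (rawInv t n : ℂ) -
    (‖q‖ : ℂ) ^ (∑ k, t k) * rawInv t m) * w m) (fun X => ?_) m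
  simp only [sub_mul, Finset.sum_sub_distrib, sub_eq_zero]
  have eL : ∑ m, (∑ n, (∏ k, rep (t k) q (m k) (n k)) * (rawInv t n : ℂ)) * w m *
      ∏ k, X k ^ (m k : ℕ) = ∑ n, (rawInv t n : ℂ) * ∏ k, ((Real.sqrt ((t k).choose (n k)) : ℂ) *
        ((qα q * X k - star (qβ q)) ^ (n k : ℕ) *
          (qβ q * X k + star (qα q)) ^ (t k - n k))) := by
    simp only [← rep_col, Fintype.prod_sum, Finset.sum_mul, Finset.mul_sum, hw]
    rw [Finset.sum_comm]
    refine Finset.sum_congr rfl fun n _ => Finset.sum_congr rfl fun m _ => ?_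
    simp only [Finset.prod_mul_distrib]
    ring
  have eR : ∑ m, (‖q‖ : ℂ) ^ (∑ k, t k) * rawInv t m * w m * ∏ k, X k ^ (m k : ℕ) =
      (‖q‖ : ℂ) ^ (∑ k, t k) * ∑ m, (rawInv t m : ℂ) *
        ∏ k, ((Real.sqrt ((t k).choose (m k)) : ℂ) *
          (X k ^ (m k : ℕ) * (fun _ => (1 : ℂ)) k ^ (t k - m k))) := by
    rw [Finset.mul_sum]
    refine Finset.sum_congr rfl fun m _ => ?_
    simp only [hw, one_pow, mul_one, Finset.prod_mul_distrib]
    ring
  rw [eL, eR, raw_expand ht _ (fun k => qβ q * X k + star (qα q)), raw_expand ht]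
  have b : ∀ i j, (qα q * X i - star (qβ q)) * (qβ q * X j + star (qα q)) -
      (qα q * X j - star (qβ q)) * (qβ q * X i + star (qα q)) =
        (‖q‖ : ℂ) ^ 2 * (X i * 1 - X j * 1) := fun i j => by
    linear_combination (X i - X j) * normSq_eq q
  simp only [b, mul_pow, ← pow_mul]
  obtain ⟨he, e0, e1, e2⟩ := ht
  rw [Nat.even_iff] at he
  rw [Fin.sum_univ_three, show t 0 + t 1 + t 2 = 2 * ((t 0 + t 1 - t 2) / 2) +
    2 * ((t 1 + t 2 - t 0) / 2) + 2 * ((t 2 + t 0 - t 1) / 2) by omega, pow_add, pow_add]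
  ring

theorem raw_sq_pos {t : Lbl} (ht : LblOK t) : 0 < ∑ n, rawInv t n ^ 2 := by
  refine (Finset.sum_nonneg fun n _ => sq_nonneg _).lt_of_ne fun h => ?_
  have hz : ∀ n, rawInv t n = 0 := fun n => pow_eq_zero_iff two_ne_zero |>.1
    ((Finset.sum_eq_zero_iff_of_nonneg fun n _ => sq_nonneg _).1 h.symm n (Finset.mem_univ n))
  have := raw_expand ht ![0, 1, 2] fun _ => 1
  simp [hz] at this
  norm_num at this

theorem inv_norm {t : Lbl} (ht : LblOK t) : ∑ m, ‖inv t m‖ ^ 2 = 1 := by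
  have h := raw_sq_pos ht
  simp only [inv, Complex.norm_real, Real.norm_eq_abs, sq_abs, div_pow, Real.sq_sqrt h.le]
  rw [← Finset.sum_div, div_self h.ne']

theorem inv_real (t : Lbl) (m : MIdx t) : star (inv t m) = inv t m := by
  simp [inv, Complex.conj_ofReal]

theorem raw_cyc (t : Lbl) (m : MIdx t) :
    rawInv (fun k => t (k + 1)) (fun k => m (k + 1)) = rawInv t m := by
  unfold rawInv
  dsimp only
  congr 1
  · simp only [show (0 : Fin 3) + 1 = 1 from rfl, show (1 : Fin 3) + 1 = 2 from rfl,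
      show (2 : Fin 3) + 1 = 0 from rfl]
    conv_rhs => rw [Finset.sum_comm]
    refine Finset.sum_congr rfl fun y _ => ?_
    conv_rhs => rw [Finset.sum_comm]
    refine Finset.sum_congr rfl fun z _ => Finset.sum_congr rfl fun x _ => ?_
    have c0 : ((m (0 + 1) : Fin _) : ℕ) = (m 1 : ℕ) := rfl
    have c1 : ((m (1 + 1) : Fin _) : ℕ) = (m 2 : ℕ) := rfl
    have c2 : ((m (2 + 1) : Fin _) : ℕ) = (m 0 : ℕ) := rfl
    refine if_ctx_congr (by omega) (fun _ => ?_) fun _ => rfl
    simp only [pow_add]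
    ring
  · congr 1
    exact Fintype.prod_equiv (Equiv.addRight 1) _ _ fun k => rfl

/-- The tensor is invariant under a cyclic shift of the three slots. -/
theorem inv_cyc (t : Lbl) (m : MIdx t) :
    inv (fun k => t (k + 1)) (fun k => m (k + 1)) = inv t m := by
  have e : ∑ n, rawInv (fun k => t (k + 1)) n ^ 2 = ∑ n, rawInv t n ^ 2 := by
    refine (Fintype.sum_bijective (fun (n : MIdx t) => fun k => n (k + 1)) ?_ _ _ fun n => ?_).symm
    · refine ⟨fun a b h => funext fun k => ?_, fun n => ?_⟩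
      · have h' := congrFun h (k - 1)
        revert h'
        simp only []
        rw [sub_add_cancel]
        exact id
      · refine ⟨(Equiv.piCongrLeft (fun k => Fin (t k + 1)) (Equiv.addRight (1 : Fin 3))) n, ?_⟩
        funext k
        exact Equiv.piCongrLeft_apply_apply (P := fun k => Fin (t k + 1)) (Equiv.addRight 1) n k
    · rw [raw_cyc]
  unfold inv
  rw [raw_cyc, e]

theorem inv_invariant {t : Lbl} (ht : LblOK t) (q : ℍ[ℝ]) (m : MIdx t) :
    ∑ n, (∏ k, rep (t k) q (m k) (n k)) * inv t n = (‖q‖ : ℂ) ^ (∑ k, t k) * inv t m := by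
  simp only [inv, Complex.ofReal_div, ← mul_div_assoc, ← Finset.sum_div, raw_invariant ht q m]

/-- The coupling map of the labels `G + 1`, `G + 2` onto the label `G`. -/
def coup (t : Lbl) (G : Fin 3) :
    Matrix (Fin (t (G + 1) + 1) × Fin (t (G + 2) + 1)) (Fin (t G + 1)) ℂ :=
  fun p l => (Real.sqrt (t G + 1) : ℂ) *
    ∑ m : MIdx t, if m G = l ∧ m (G + 1) = p.1 ∧ m (G + 2) = p.2 then inv t m else 0

theorem coup_apply (t : Lbl) (G : Fin 3) (m : MIdx t) :
    coup t G (m (G + 1), m (G + 2)) (m G) = (Real.sqrt (t G + 1) : ℂ) * inv t m := by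
  unfold coup
  rw [Finset.sum_eq_single m, if_pos ⟨rfl, rfl, rfl⟩]
  · intro n _ hn
    rw [if_neg]
    rintro ⟨a, b, c⟩
    exact hn ((slotEquiv t G).symm.injective (by simp [slotEquiv, a, b, c]))
  · simp

theorem coup_real (t : Lbl) (G : Fin 3) : (coup t G).map star = coup t G := by
  ext ⟨a, b⟩ l
  obtain ⟨m, hm⟩ : ∃ m, (slotEquiv t G).symm m = ((a, b), l) :=
    (slotEquiv t G).symm.surjective _
  simp only [slotEquiv, Equiv.coe_fn_symm_mk, Prod.mk.injEq] at hm
  obtain ⟨⟨rfl, rfl⟩, rfl⟩ := hm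
  rw [Matrix.map_apply, coup_apply, star_mul', inv_real,
    show star ((Real.sqrt (t G + 1) : ℝ) : ℂ) = (Real.sqrt (t G + 1) : ℂ) from
      Complex.conj_ofReal _]

/-- Changing one slot. -/
theorem sum_update {t : Lbl} (m : MIdx t) (k : Fin 3) (f : MIdx t → ℂ) :
    ∑ n, (if ∀ i, i ≠ k → m i = n i then f n else 0) = ∑ j, f (Function.update m k j) := by
  rw [← Finset.sum_filter]
  symm
  refine Finset.sum_bij (fun j _ => Function.update m k j) (fun j _ => ?_) ?_ ?_ fun j _ => rfl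
  · simp +contextual
  · intro a _ b _ h
    simpa using congrFun h k
  · intro n hn
    refine ⟨n k, Finset.mem_univ _, funext fun i => ?_⟩
    by_cases hi : i = k
    · subst hi; simp
    · simp [hi, (Finset.mem_filter.1 hn).2 i hi]

/-- A unit curve through `1`. -/
theorem rep_hasDerivAt (a : ℕ) (k : Fin 3) (i j : Fin (a + 1)) :
    HasDerivAt (fun s : ℝ => rep a (Real.cos s • (1 : ℍ[ℝ]) + Real.sin s • imUnit k) i j)
      (2 * gen a k i j) 0 := by
  have hc : HasDerivAt (fun s : ℝ => Real.cos s • (1 : ℍ[ℝ]) + Real.sin s • imUnit k)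
      (imUnit k) 0 := by
    simpa using ((Real.hasDerivAt_cos 0).smul_const (1 : ℍ[ℝ])).fun_add
      ((Real.hasDerivAt_sin 0).smul_const (imUnit k))
  have hf : HasFDerivAt (rep a) (fderiv ℝ (rep a) 1)
      (Real.cos (0 : ℝ) • (1 : ℍ[ℝ]) + Real.sin (0 : ℝ) • imUnit k) := by
    simpa using (((rep_contDiff a (n := 1)).differentiable one_ne_zero) 1).hasFDerivAt
  let ev : Matrix (Fin (a + 1)) (Fin (a + 1)) ℂ →L[ℝ] ℂ :=
    LinearMap.toContinuousLinearMap
      { toFun := fun M => M i j, map_add' := fun _ _ => rfl, map_smul' := fun _ _ => rfl }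
  have h := ev.hasFDerivAt.comp_hasDerivAt 0 (hf.comp_hasDerivAt 0 hc)
  refine h.congr_deriv ?_
  simp [ev, gen]
  rfl

theorem norm_imUnit_curve (k : Fin 3) (s : ℝ) :
    ‖Real.cos s • (1 : ℍ[ℝ]) + Real.sin s • imUnit k‖ = 1 := by
  have h := Quaternion.normSq_eq_norm_mul_self (Real.cos s • (1 : ℍ[ℝ]) + Real.sin s • imUnit k)
  have e : Quaternion.normSq (Real.cos s • (1 : ℍ[ℝ]) + Real.sin s • imUnit k) = 1 := by
    have hq : (imUnit k).re = 0 ∧ Quaternion.normSq (imUnit k) = 1 := by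
      rw [Quaternion.normSq_def']
      fin_cases k <;> simp [imUnit]
    rw [Quaternion.normSq_def'] at hq ⊢
    simp [hq.1] at hq ⊢
    linear_combination (Real.sin s) ^ 2 * hq + Real.sin_sq_add_cos_sq s
  rw [e] at h
  nlinarith [norm_nonneg (Real.cos s • (1 : ℍ[ℝ]) + Real.sin s • imUnit k)]

/-- The infinitesimal invariance of the tensor. -/
theorem inv_infinitesimal {t : Lbl} (ht : LblOK t) (k : Fin 3) (m : MIdx t) :
    ∑ s, ∑ j, gen (t s) k (m s) j * inv t (Function.update m s j) = 0 := by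
  set c : ℝ → ℍ[ℝ] := fun x => Real.cos x • (1 : ℍ[ℝ]) + Real.sin x • imUnit k with hc
  have c0 : c 0 = 1 := by simp [hc]
  have hd : HasDerivAt (fun x : ℝ => ∑ n, (∏ s, rep (t s) (c x) (m s) (n s)) * inv t n)
      (∑ n, (∑ s, (∏ i ∈ Finset.univ.erase s, rep (t i) (c 0) (m i) (n i)) •
        (2 * gen (t s) k (m s) (n s))) * inv t n) 0 :=
    HasDerivAt.fun_sum fun n _ => (HasDerivAt.fun_finsetProd fun s _ =>
      rep_hasDerivAt (t s) k (m s) (n s)).mul_const _
  have hconst : (fun x : ℝ => ∑ n, (∏ s, rep (t s) (c x) (m s) (n s)) * inv t n) =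
      fun _ => inv t m := funext fun x => by
    rw [inv_invariant ht, norm_imUnit_curve]; simp
  rw [hconst] at hd
  have h0 := hd.unique (hasDerivAt_const (0 : ℝ) (inv t m))
  simp only [c0, rep_one, smul_eq_mul, Matrix.one_apply, Finset.sum_mul] at h0
  rw [Finset.sum_comm] at h0
  have e : ∀ s : Fin 3, ∑ n : MIdx t, (∏ i ∈ Finset.univ.erase s, if m i = n i then (1 : ℂ) else 0) *
      (2 * gen (t s) k (m s) (n s)) * inv t n =
      2 * ∑ j, gen (t s) k (m s) j * inv t (Function.update m s j) := by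
    intro s
    simp only [Finset.prod_boole, Finset.mem_erase, Finset.mem_univ, and_true]
    rw [Finset.mul_sum]
    refine Eq.trans (Finset.sum_congr rfl fun n _ => ?_)
      ((sum_update m s fun n => 2 * gen (t s) k (m s) (n s) * inv t n).trans
        (Finset.sum_congr rfl fun j _ => by rw [Function.update_self]; ring))
    split_ifs <;> simp
  simp only [e, ← Finset.mul_sum] at h0
  exact (mul_eq_zero.1 h0).resolve_left two_ne_zero

/-- The infinitesimal form of the invariance. -/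
theorem coup_intertwine {t : Lbl} (ht : LblOK t) (G : Fin 3) (k : Fin 3) :
    (gen (t (G + 1)) k ⊗ₖ (1 : Matrix (Fin (t (G + 2) + 1)) (Fin (t (G + 2) + 1)) ℂ) +
        (1 : Matrix (Fin (t (G + 1) + 1)) (Fin (t (G + 1) + 1)) ℂ) ⊗ₖ gen (t (G + 2)) k) *
      coup t G = -(coup t G * (gen (t G) k)ᵀ) := by
  ext ⟨a, b⟩ l
  obtain ⟨m, hm⟩ : ∃ m, (slotEquiv t G).symm m = ((a, b), l) :=
    (slotEquiv t G).symm.surjective _
  simp only [slotEquiv, Equiv.coe_fn_symm_mk, Prod.mk.injEq] at hm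
  obtain ⟨⟨rfl, rfl⟩, rfl⟩ := hm
  have h12 : G + 1 ≠ G + 2 := by omega
  have h02 : G ≠ G + 2 := by omega
  have h01 : G ≠ G + 1 := by omega
  have f1 : ∀ j, coup t G (j, m (G + 2)) (m G) =
      (Real.sqrt (t G + 1) : ℂ) * inv t (Function.update m (G + 1) j) := fun j => by
    have := coup_apply t G (Function.update m (G + 1) j)
    rwa [Function.update_self, Function.update_of_ne h12.symm, Function.update_of_ne h01] at this
  have f2 : ∀ j, coup t G (m (G + 1), j) (m G) =
      (Real.sqrt (t G + 1) : ℂ) * inv t (Function.update m (G + 2) j) := fun j => by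
    have := coup_apply t G (Function.update m (G + 2) j)
    rwa [Function.update_self, Function.update_of_ne h12, Function.update_of_ne h02] at this
  have f0 : ∀ j, coup t G (m (G + 1), m (G + 2)) j =
      (Real.sqrt (t G + 1) : ℂ) * inv t (Function.update m G j) := fun j => by
    have := coup_apply t G (Function.update m G j)
    rwa [Function.update_self, Function.update_of_ne h01.symm, Function.update_of_ne h02.symm]
      at this
  have h := inv_infinitesimal ht k m
  have e3 : ∀ f : Fin 3 → ℂ, ∑ s, f s = f G + f (G + 1) + f (G + 2) := fun f => by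
    fin_cases G <;> simp [Fin.sum_univ_three] <;> ring
  rw [e3] at h
  simp only [Matrix.mul_apply, Matrix.neg_apply, Matrix.add_apply, Matrix.kroneckerMap_apply,
    Matrix.transpose_apply, add_mul, Finset.sum_add_distrib, Fintype.sum_prod_type,
    Matrix.one_apply, mul_ite, ite_mul, mul_one, one_mul, mul_zero, zero_mul, Finset.sum_ite_eq,
    Finset.mem_univ, if_true, Finset.sum_ite_irrel, Finset.sum_const_zero, f0, f1, f2]
  linear_combination (norm := skip) (Real.sqrt (t G + 1) : ℂ) * h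
  simp only [Finset.mul_sum, mul_add, mul_left_comm, mul_comm]
  ring

/-- Only scalars commute with the transposed generators. -/
theorem scalar_of_commute {a : ℕ} {A : Matrix (Fin (a + 1)) (Fin (a + 1)) ℂ}
    (h : ∀ k, A * (gen a k)ᵀ = (gen a k)ᵀ * A) : ∃ c : ℂ, A = c • 1 := by
  have hT : ∀ k, gen a k * Aᵀ = Aᵀ * gen a k := fun k => by
    simpa only [Matrix.transpose_mul, Matrix.transpose_transpose] using congrArg Matrix.transpose (h k)
  have hall : ∀ X : Matrix (Fin (a + 1)) (Fin (a + 1)) ℂ, Commute X Aᵀ := fun X => by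
    have hX : X ∈ Algebra.adjoin ℂ (Set.range (gen a)) := gen_adjoin_eq_top a ▸ Algebra.mem_top
    induction hX using Algebra.adjoin_induction with
    | mem x hx => obtain ⟨k, rfl⟩ := hx; exact hT k
    | algebraMap r => exact Algebra.commute_algebraMap_left r Aᵀ
    | add x y _ _ hx hy => exact hx.add_left hy
    | mul x y _ _ hx hy => exact hx.mul_left hy
  obtain ⟨c, hc⟩ : Aᵀ ∈ Set.range (Matrix.scalar (Fin (a + 1))) :=
    Matrix.mem_range_scalar_of_commute_single fun i j _ => hall _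
  refine ⟨c, Matrix.transpose_injective ?_⟩
  rw [← hc]
  simp [Matrix.smul_one_eq_diagonal]

theorem kron_skew {a b : ℕ} (k : Fin 3) :
    (gen a k ⊗ₖ (1 : Matrix (Fin (b + 1)) (Fin (b + 1)) ℂ) +
      (1 : Matrix (Fin (a + 1)) (Fin (a + 1)) ℂ) ⊗ₖ gen b k)ᴴ =
    -(gen a k ⊗ₖ (1 : Matrix (Fin (b + 1)) (Fin (b + 1)) ℂ) +
      (1 : Matrix (Fin (a + 1)) (Fin (a + 1)) ℂ) ⊗ₖ gen b k) := by
  rw [Matrix.conjTranspose_add, Matrix.conjTranspose_kronecker, Matrix.conjTranspose_kronecker,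
    gen_skew, gen_skew, Matrix.conjTranspose_one, Matrix.conjTranspose_one]
  ext ⟨i, i'⟩ ⟨j, j'⟩
  simp [Matrix.kroneckerMap_apply]
  ring

theorem genT_skew (a : ℕ) (k : Fin 3) : ((gen a k)ᵀ)ᴴ = -(gen a k)ᵀ := by
  ext i j
  simpa using congrFun (congrFun (gen_skew a k) j) i

/-- Two intertwiners with one middle space give an intertwiner of the outer spaces. -/
theorem conjTranspose_mul_intertwine {n : Type*} [Fintype n] {a b : ℕ} {L : Matrix n n ℂ}
    {C : Matrix n (Fin (a + 1)) ℂ} {D : Matrix n (Fin (b + 1)) ℂ} {k : Fin 3} (hL : Lᴴ = -L)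
    (hC : L * C = -(C * (gen a k)ᵀ)) (hD : L * D = -(D * (gen b k)ᵀ)) :
    Dᴴ * C * (gen a k)ᵀ = (gen b k)ᵀ * (Dᴴ * C) := by
  have h1 : Dᴴ * L = -((gen b k)ᵀ * Dᴴ) := by
    have := congrArg Matrix.conjTranspose hD
    simpa [Matrix.conjTranspose_mul, Matrix.conjTranspose_neg, hL, genT_skew, neg_eq_iff_eq_neg] using this
  have h2 : Dᴴ * (L * C) = -(Dᴴ * C * (gen a k)ᵀ) := by
    rw [hC, Matrix.mul_neg, Matrix.mul_assoc]
  rw [← Matrix.mul_assoc, h1, Matrix.neg_mul, neg_inj, Matrix.mul_assoc] at h2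
  exact h2.symm

theorem coup_isometry {t : Lbl} (ht : LblOK t) (G : Fin 3) :
    (coup t G)ᴴ * coup t G = 1 := by
  obtain ⟨c, hc⟩ := scalar_of_commute fun k =>
    conjTranspose_mul_intertwine (kron_skew k) (coup_intertwine ht G k) (coup_intertwine ht G k)
  have htr : ((coup t G)ᴴ * coup t G).trace = (t G + 1 : ℂ) := by
    have e : ((coup t G)ᴴ * coup t G).trace =
        ∑ m : MIdx t, star (coup t G (m (G + 1), m (G + 2)) (m G)) *
          coup t G (m (G + 1), m (G + 2)) (m G) := by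
      simp only [Matrix.trace, Matrix.diag_apply, Matrix.mul_apply, Matrix.conjTranspose_apply]
      rw [← (slotEquiv t G).symm.sum_comp
        (fun x => star (coup t G x.1 x.2) * coup t G x.1 x.2) |>.trans
          (Fintype.sum_prod_type_right _)]
      rfl
    rw [e]
    simp only [coup_apply, star_mul', inv_real]
    have hr : star ((Real.sqrt (t G + 1) : ℝ) : ℂ) = (Real.sqrt (t G + 1) : ℂ) :=
      Complex.conj_ofReal _
    have hn : ∀ m : MIdx t, inv t m * inv t m = ((‖inv t m‖ ^ 2 : ℝ) : ℂ) := fun m => by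
      nth_rewrite 1 [← inv_real]
      rw [← starRingEnd_apply, ← Complex.normSq_eq_conj_mul_self, Complex.normSq_eq_norm_sq]
    have hs : (Real.sqrt (t G + 1) : ℂ) * (Real.sqrt (t G + 1) : ℂ) = (t G + 1 : ℂ) := by
      rw [← Complex.ofReal_mul, Real.mul_self_sqrt (by positivity)]
      simp
    simp only [hr, mul_mul_mul_comm _ (inv t _), hs, hn, ← Finset.mul_sum, ← Complex.ofReal_sum,
      inv_norm ht, Complex.ofReal_one, mul_one]
  rw [hc] at htr ⊢
  rw [Matrix.trace_smul, Matrix.trace_one, Fintype.card_fin, smul_eq_mul] at htr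
  push_cast at htr
  have h0 : (t G : ℂ) + 1 ≠ 0 := by exact_mod_cast Nat.succ_ne_zero (t G)
  have hc1 : c = 1 := mul_right_cancel₀ h0 (by rw [htr, one_mul])
  rw [hc1, one_smul]

theorem gen_cast {a b : ℕ} (h : a = b) (k : Fin 3) :
    gen a k = (gen b k).submatrix (Fin.cast (by rw [h])) (Fin.cast (by rw [h])) := by
  subst h; rfl

/-- Couplings to different labels are orthogonal. -/
theorem coup_orthogonal {t u : Lbl} (ht : LblOK t) (hu : LblOK u) (G : Fin 3)
    (h1 : t (G + 1) = u (G + 1)) (h2 : t (G + 2) = u (G + 2)) (hne : t G ≠ u G)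
    (l : Fin (t G + 1)) (l' : Fin (u G + 1)) :
    ∑ p : Fin (t (G + 1) + 1) × Fin (t (G + 2) + 1),
      star (coup t G p l) * coup u G (Fin.cast (by rw [h1]) p.1, Fin.cast (by rw [h2]) p.2) l' = 0 := by
  let e : Fin (t (G + 1) + 1) × Fin (t (G + 2) + 1) ≃ Fin (u (G + 1) + 1) × Fin (u (G + 2) + 1) :=
    (finCongr (by rw [h1])).prodCongr (finCongr (by rw [h2]))
  set D := (coup u G).submatrix e id with hDdef
  have hD : ∀ k, (gen (t (G + 1)) k ⊗ₖ (1 : Matrix (Fin (t (G + 2) + 1)) (Fin (t (G + 2) + 1)) ℂ) +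
      (1 : Matrix (Fin (t (G + 1) + 1)) (Fin (t (G + 1) + 1)) ℂ) ⊗ₖ gen (t (G + 2)) k) * D =
      -(D * (gen (u G) k)ᵀ) := by
    intro k
    have h := congrArg (fun M => M.submatrix e id) (coup_intertwine hu G k)
    rw [Matrix.submatrix_mul _ _ e e id e.bijective, Matrix.submatrix_neg, Pi.neg_apply,
      Pi.neg_apply, Matrix.submatrix_mul _ _ e id id Function.bijective_id,
      Matrix.submatrix_id_id] at h
    convert h using 2
    rw [gen_cast h1, gen_cast h2]
    ext ⟨i, i'⟩ ⟨j, j'⟩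
    simp only [Matrix.kroneckerMap_apply, Matrix.add_apply, Matrix.submatrix_apply, Matrix.one_apply]
    simp only [e, Equiv.prodCongr_apply, Prod.map_apply, finCongr_apply, Fin.cast_inj]
  set B := (coup t G)ᴴ * D with hB
  have hint : ∀ k, B * (gen (u G) k)ᵀ = (gen (t G) k)ᵀ * B := fun k =>
    conjTranspose_mul_intertwine (kron_skew k) (hD k) (coup_intertwine ht G k)
  have hint' : ∀ k, Bᴴ * (gen (t G) k)ᵀ = (gen (u G) k)ᵀ * Bᴴ := fun k => by
    have := congrArg Matrix.conjTranspose (hint k)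
    rw [Matrix.conjTranspose_mul B, Matrix.conjTranspose_mul _ B, genT_skew, genT_skew, Matrix.neg_mul,
      Matrix.mul_neg, neg_inj] at this
    exact this.symm
  obtain ⟨c, hc⟩ := scalar_of_commute (A := Bᴴ * B) fun k => by
    rw [Matrix.mul_assoc, hint, ← Matrix.mul_assoc, hint', Matrix.mul_assoc]
  obtain ⟨c', hc'⟩ := scalar_of_commute (A := B * Bᴴ) fun k => by
    rw [Matrix.mul_assoc, hint', ← Matrix.mul_assoc, hint, Matrix.mul_assoc]
  have hB0 : B = 0 := by
    by_contra hne0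
    have h3 : c' • B = c • B := by
      have h4 : B * Bᴴ * B = B * (Bᴴ * B) := Matrix.mul_assoc _ _ _
      rw [hc, hc'] at h4
      simpa using h4
    have hcc : c' = c := smul_left_injective ℂ hne0 h3
    have htr := Matrix.trace_mul_comm B Bᴴ
    rw [hc, hc', hcc, Matrix.trace_smul, Matrix.trace_smul, Matrix.trace_one, Matrix.trace_one,
      smul_eq_mul, smul_eq_mul, mul_eq_mul_left_iff] at htr
    rcases htr with h | h
    · simp only [Fintype.card_fin, Nat.cast_inj] at h
      omega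
    · subst h
      exact hne0 (Matrix.conjTranspose_mul_self_eq_zero.1 (by simpa using hc))
  have := congrFun (congrFun hB0 l) l'
  simp [hB, hDdef, Matrix.mul_apply, e] at this ⊢
  exact this

theorem conjJ_map_star (a : ℕ) : (conjJ a).map star = conjJ a := by
  ext k i
  have e : ((Polynomial.C (qα (imUnit 1)) * Polynomial.X - Polynomial.C (star (qβ (imUnit 1)))) ^
      (i : ℕ) * (Polynomial.C (qβ (imUnit 1)) * Polynomial.X +
        Polynomial.C (star (qα (imUnit 1)))) ^ (a - i)) =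
      Polynomial.C ((-1 : ℂ) ^ (i : ℕ)) * Polynomial.X ^ (a - i) := by
    have ha : qα (imUnit 1) = 0 := by simp [qα, imUnit]; rfl
    have hb : qβ (imUnit 1) = 1 := by simp [qβ, imUnit]; rfl
    simp [ha, hb, map_pow]
  simp only [conjJ, rep, Matrix.map_apply, e, Polynomial.coeff_C_mul_X_pow]
  split_ifs <;> simp [Complex.conj_ofReal]

/-- The real structure commutes with the coupling. -/
theorem coup_conjJ {t : Lbl} (ht : LblOK t) (G : Fin 3) :
    (conjJ (t (G + 1)) ⊗ₖ conjJ (t (G + 2))) * (coup t G).map star =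
      coup t G * conjJ (t G) := by
  have hn : ‖imUnit 1‖ = 1 := by simpa using norm_imUnit_curve 1 (Real.pi / 2)
  have hfin : (conjJ (t (G + 1)) ⊗ₖ conjJ (t (G + 2))) * coup t G * (conjJ (t G))ᵀ =
      coup t G := by
    ext ⟨a, b⟩ l
    obtain ⟨m, hm⟩ : ∃ m, (slotEquiv t G).symm m = ((a, b), l) :=
      (slotEquiv t G).symm.surjective _
    simp only [slotEquiv, Equiv.coe_fn_symm_mk, Prod.mk.injEq] at hm
    obtain ⟨⟨rfl, rfl⟩, rfl⟩ := hm
    have h := inv_invariant ht (imUnit 1) m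
    rw [hn, Complex.ofReal_one, one_pow, one_mul] at h
    rw [coup_apply, ← h, Finset.mul_sum]
    simp only [Matrix.mul_apply, Finset.sum_mul, Matrix.transpose_apply, Matrix.kroneckerMap_apply]
    rw [← (slotEquiv t G).symm.sum_comp (fun x =>
      conjJ (t (G + 1)) (m (G + 1)) x.1.1 * conjJ (t (G + 2)) (m (G + 2)) x.1.2 *
        coup t G x.1 x.2 * conjJ (t G) (m G) x.2) |>.trans (Fintype.sum_prod_type_right _)]
    refine Finset.sum_congr rfl fun n _ => ?_
    show _ * coup t G (n (G + 1), n (G + 2)) (n G) * _ = _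
    have e3 : ∏ s, rep (t s) (imUnit 1) (m s) (n s) =
        conjJ (t G) (m G) (n G) * conjJ (t (G + 1)) (m (G + 1)) (n (G + 1)) *
          conjJ (t (G + 2)) (m (G + 2)) (n (G + 2)) := by
      fin_cases G <;> simp [Fin.prod_univ_three, conjJ] <;> ring
    rw [coup_apply, e3]
    simp only [slotEquiv, Equiv.coe_fn_symm_mk]
    ring
  have hu : (conjJ (t G))ᵀ * conjJ (t G) = 1 := by
    have e : (conjJ (t G))ᵀ = (conjJ (t G))ᴴ := by
      ext i j
      simpa using (congrFun (congrFun (conjJ_map_star (t G)) j) i).symm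
    have h1 : star (imUnit 1) * imUnit 1 = 1 := by
      rw [Quaternion.star_mul_self, Quaternion.normSq_eq_norm_mul_self, hn]
      simp
    rw [e, conjJ, ← rep_star, ← rep_mul, h1, rep_one]
  rw [coup_real]
  conv_rhs => rw [← hfin]
  rw [Matrix.mul_assoc, hu, Matrix.mul_one]

end Vale.Agent.P225.SU2
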